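import Mathlib

/-!
Area of planar pieces in Euclidean space: affine images of subsets of `ℝ × ℝ`, their orthogonal
projections along a direction of `ℝ³`, triangles, parallelograms and thickenings.
-/

open MeasureTheory Set
open scoped ENNReal

noncomputable section

namespace Crest.Agent.R211

abbrev E2 := EuclideanSpace ℝ (Fin 2)
abbrev E3 := EuclideanSpace ℝ (Fin 3)

section General

variable {V : Type*} [NormedAddCommGroup V] [InnerProductSpace ℝ V]

/-- area of the parallelogram spanned by `a`, `b`. -/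
def gram (a b : V) : ℝ := Real.sqrt (‖a‖ ^ 2 * ‖b‖ ^ 2 - inner ℝ a b ^ 2)

/-- the affine parametrisation `(x, y) ↦ c + x a + y b`. -/
def par (c a b : V) (z : ℝ × ℝ) : V := c + z.1 • a + z.2 • b

theorem gram_nonneg (a b : V) : 0 ≤ gram a b := Real.sqrt_nonneg _

/-- the linear map `E2 → V` with columns `a`, `b`. -/
def lin2 (a b : V) : E2 →ₗ[ℝ] V where
  toFun z := z 0 • a + z 1 • b
  map_add' x y := by simp [add_smul]; abel
  map_smul' r x := by simp [mul_smul]

theorem normDet_lin2 (a b : V) : (lin2 a b).normDet = gram a b := by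
  have h := (lin2 a b).normDet_sq_eq_det_gram (EuclideanSpace.basisFun (Fin 2) ℝ)
  have h2 : (lin2 a b).normDet ^ 2 = ‖a‖ ^ 2 * ‖b‖ ^ 2 - inner ℝ a b ^ 2 := by
    have h' : (lin2 a b).normDet ^ 2 = (Matrix.gram ℝ
      (fun i => lin2 a b (EuclideanSpace.basisFun (Fin 2) ℝ i))).det := by simpa using h
    rw [h', Matrix.det_fin_two]
    simp [Matrix.gram, lin2, real_inner_comm a b]
    ring
  rw [gram, ← h2, Real.sqrt_sq (LinearMap.normDet_nonneg _)]

variable [MeasurableSpace V] [BorelSpace V]

theorem area_par (c a b : V) (S : Set (ℝ × ℝ)) :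
    μHE[2] (par c a b '' S) = ENNReal.ofReal (gram a b) * volume S := by
  let e : E2 ≃ᵐ ℝ × ℝ :=
    (MeasurableEquiv.toLp 2 (Fin 2 → ℝ)).symm.trans MeasurableEquiv.finTwoArrow
  have he : MeasurePreserving e volume volume :=
    (EuclideanSpace.volume_preserving_symm_measurableEquiv_toLp (Fin 2)).trans
      (volume_preserving_finTwoArrow ℝ)
  have h1 : par c a b '' S = (fun x => c + x) '' (lin2 a b '' (e ⁻¹' S)) := by
    ext x
    simp only [mem_image, mem_preimage, exists_exists_and_eq_and]
    constructor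
    · rintro ⟨z, hz, rfl⟩
      refine ⟨e.symm z, by simpa using hz, ?_⟩
      simp [e, lin2, par, MeasurableEquiv.finTwoArrow, add_assoc]
    · rintro ⟨z, hz, rfl⟩
      refine ⟨e z, hz, ?_⟩
      simp [e, lin2, par, MeasurableEquiv.finTwoArrow, add_assoc]
  have hiso : Isometry (fun x : V => c + x) := isometry_add_left c
  rw [h1, hiso.euclideanHausdorffMeasure_image]
  have h2 := (lin2 a b).euclideanHausdorffMeasure_image_eq_normDet_mul_volume (e ⁻¹' S)
  rw [finrank_euclideanSpace_fin] at h2
  rw [h2, normDet_lin2, he.measure_preimage_equiv]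

end General

/-- the closed standard triangle. -/
def tri : Set (ℝ × ℝ) := {z | 0 ≤ z.1 ∧ 0 ≤ z.2 ∧ z.1 + z.2 ≤ 1}

/-- the open standard triangle. -/
def triO : Set (ℝ × ℝ) := {z | 0 < z.1 ∧ 0 < z.2 ∧ z.1 + z.2 < 1}

theorem volume_triO : volume triO = ENNReal.ofReal (1 / 2) := by
  have h : triO = regionBetween (fun _ => 0) (fun x => 1 - x) (Ioo (0 : ℝ) 1) := by
    ext z
    simp only [triO, regionBetween, mem_ofPred_eq, mem_Ioo]
    constructor
    · rintro ⟨h1, h2, h3⟩
      exact ⟨⟨h1, by linarith⟩, h2, by linarith⟩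
    · rintro ⟨⟨h1, _⟩, h2, h3⟩
      exact ⟨h1, h2, by linarith⟩
  rw [h, Measure.volume_eq_prod, volume_regionBetween_eq_integral]
  · congr 1
    rw [← integral_Ioc_eq_integral_Ioo, ← intervalIntegral.integral_of_le zero_le_one]
    simp only [Pi.sub_apply, sub_zero]
    rw [intervalIntegral.integral_sub (by simp) (by simp)]
    simp
    norm_num
  · simp
  · exact (Continuous.integrableOn_Icc (by fun_prop)).mono_set Ioo_subset_Icc_self
  · exact measurableSet_Ioo
  · intro x hx
    linarith [hx.2]

theorem convex_tri : Convex ℝ tri := by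
  intro x hx y hy a b ha hb hab
  obtain ⟨h1, h2, h3⟩ := hx
  obtain ⟨h4, h5, h6⟩ := hy
  refine ⟨?_, ?_, ?_⟩
  · simp only [Prod.fst_add, Prod.smul_fst, smul_eq_mul]; positivity
  · simp only [Prod.snd_add, Prod.smul_snd, smul_eq_mul]; positivity
  · simp only [Prod.fst_add, Prod.smul_fst, Prod.snd_add, Prod.smul_snd, smul_eq_mul]
    nlinarith

theorem volume_tri : volume tri = ENNReal.ofReal (1 / 2) := by
  have hm : MeasurableSet tri := by
    unfold tri
    measurability
  rw [Measure.volume_eq_prod, Measure.prod_apply hm]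
  have h : (fun x : ℝ => volume (Prod.mk x ⁻¹' tri)) =
      (Icc (0 : ℝ) 1).indicator fun x => ENNReal.ofReal (1 - x) := by
    funext x
    by_cases hx : x ∈ Icc (0 : ℝ) 1
    · rw [indicator_of_mem hx]
      have : Prod.mk x ⁻¹' tri = Icc 0 (1 - x) := by
        ext y
        simp only [tri, mem_preimage, mem_ofPred_eq, mem_Icc]
        constructor
        · rintro ⟨_, h2, h3⟩
          exact ⟨h2, by linarith⟩
        · rintro ⟨h2, h3⟩
          exact ⟨hx.1, h2, by linarith⟩
      rw [this]
      simp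
    · rw [indicator_of_notMem hx]
      have : Prod.mk x ⁻¹' tri = ∅ := by
        ext y
        simp only [tri, mem_preimage, mem_ofPred_eq, mem_empty_iff_false, iff_false]
        rintro ⟨h1, h2, h3⟩
        exact hx ⟨h1, by linarith⟩
      rw [this]
      simp
  rw [h, lintegral_indicator measurableSet_Icc, ← ofReal_integral_eq_lintegral_ofReal]
  · congr 1
    rw [integral_Icc_eq_integral_Ioc, ← intervalIntegral.integral_of_le zero_le_one]
    rw [intervalIntegral.integral_sub (by simp) (by simp)]
    simp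
    norm_num
  · exact Continuous.integrableOn_Icc (by fun_prop)
  · filter_upwards [ae_restrict_mem measurableSet_Icc] with x hx
    simp only [Pi.zero_apply]
    linarith [hx.2]

theorem convexHull_three {V : Type*} [NormedAddCommGroup V] [InnerProductSpace ℝ V] (p q r : V) :
    convexHull ℝ {p, q, r} = par p (q - p) (r - p) '' tri := by
  apply Subset.antisymm
  · apply convexHull_min
    · intro x hx
      simp only [mem_insert_iff, mem_singleton_iff] at hx
      rcases hx with rfl | rfl | rfl
      · exact ⟨(0, 0), by simp [tri], by simp [par]⟩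
      · exact ⟨(1, 0), by simp [tri], by simp [par]⟩
      · exact ⟨(0, 1), by simp [tri], by simp [par]⟩
    · rintro _ ⟨x, hx, rfl⟩ _ ⟨y, hy, rfl⟩ a b ha hb hab
      refine ⟨a • x + b • y, convex_tri hx hy ha hb hab, ?_⟩
      have hb' : b = 1 - a := by linarith
      subst hb'
      simp only [par, Prod.fst_add, Prod.smul_fst, Prod.snd_add, Prod.smul_snd, smul_eq_mul]
      module
  · rintro _ ⟨z, ⟨h1, h2, h3⟩, rfl⟩
    have hc := convex_convexHull ℝ ({p, q, r} : Set V)
    have hp : p ∈ convexHull ℝ ({p, q, r} : Set V) := subset_convexHull _ _ (by simp)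
    have hq : q ∈ convexHull ℝ ({p, q, r} : Set V) := subset_convexHull _ _ (by simp)
    have hr : r ∈ convexHull ℝ ({p, q, r} : Set V) := subset_convexHull _ _ (by simp)
    have := hc.sum_mem (t := Finset.univ) (w := ![1 - z.1 - z.2, z.1, z.2]) (z := ![p, q, r])
      (by intro i _; fin_cases i <;> simp <;> linarith) (by simp only [Fin.sum_univ_three, Matrix.cons_val_zero, Matrix.cons_val_one, Matrix.cons_val_two, Matrix.head_cons, Matrix.tail_cons]; ring)
      (by intro i _; fin_cases i <;> simp [hp, hq, hr])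
    convert this using 1
    simp only [par, Fin.sum_univ_three, Matrix.cons_val_zero, Matrix.cons_val_one,
      Matrix.cons_val_two, Matrix.head_cons, Matrix.tail_cons]
    module

/-- determinant of three vectors of `ℝ³`. -/
def det3 (a b c : E3) : ℝ :=
  a 0 * (b 1 * c 2 - b 2 * c 1) - a 1 * (b 0 * c 2 - b 2 * c 0) + a 2 * (b 0 * c 1 - b 1 * c 0)

theorem inner3 (a b : E3) : inner ℝ a b = a 0 * b 0 + a 1 * b 1 + a 2 * b 2 := by
  simp [PiLp.inner_apply, Fin.sum_univ_three, mul_comm]

theorem normSq3 (a : E3) : ‖a‖ ^ 2 = a 0 ^ 2 + a 1 ^ 2 + a 2 ^ 2 := by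
  rw [← real_inner_self_eq_norm_sq, inner3]; ring

/-- orthogonal projection along `u` onto the plane `u^⊥`. -/
def proj (u y : E3) : E3 := y - (inner ℝ y u / ‖u‖ ^ 2) • u

theorem proj_unit {u : E3} (hu : ‖u‖ = 1) (y : E3) : proj u y = y - inner ℝ y u • u := by
  simp [proj, hu]

theorem proj_add (u x y : E3) : proj u (x + y) = proj u x + proj u y := by
  simp only [proj, inner_add_left, add_div, add_smul]; abel

theorem proj_sub (u x y : E3) : proj u (x - y) = proj u x - proj u y := by
  simp only [proj, inner_sub_left, sub_div, sub_smul]; abel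

theorem proj_smul (u : E3) (t : ℝ) (x : E3) : proj u (t • x) = t • proj u x := by
  simp only [proj, real_inner_smul_left, smul_sub, smul_smul, mul_div_assoc]

theorem proj_self {u : E3} (hu : u ≠ 0) : proj u u = 0 := by
  have : ‖u‖ ≠ 0 := norm_ne_zero_iff.2 hu
  simp only [proj, real_inner_self_eq_norm_sq]
  rw [div_self (pow_ne_zero 2 this), one_smul, sub_self]

theorem inner_proj {u : E3} (hu : u ≠ 0) (y : E3) : inner ℝ (proj u y) u = 0 := by
  have : ‖u‖ ≠ 0 := norm_ne_zero_iff.2 hu
  simp only [proj, inner_sub_left, real_inner_smul_left, real_inner_self_eq_norm_sq]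
  field_simp
  ring

theorem eq_proj_add (u y : E3) : y = proj u y + (inner ℝ y u / ‖u‖ ^ 2) • u := by
  simp [proj]

theorem proj_par (u c a b : E3) (z : ℝ × ℝ) :
    proj u (par c a b z) = par (proj u c) (proj u a) (proj u b) z := by
  simp only [par, proj_add, proj_smul]

theorem continuous_proj (u : E3) : Continuous (proj u) := by
  unfold proj
  fun_prop

theorem det3_proj (u a b : E3) : det3 (proj u a) (proj u b) u = det3 a b u := by
  simp only [det3, proj, PiLp.sub_apply, PiLp.smul_apply, smul_eq_mul]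
  ring

theorem gram_mul_norm {a b u : E3} (ha : inner ℝ a u = 0) (hb : inner ℝ b u = 0) :
    gram a b * ‖u‖ = |det3 a b u| := by
  rw [← sq_eq_sq₀ (mul_nonneg (gram_nonneg _ _) (norm_nonneg _)) (abs_nonneg _), sq_abs, mul_pow,
    gram, Real.sq_sqrt]
  · rw [inner3] at ha hb
    rw [normSq3, normSq3, normSq3, inner3, det3]
    linear_combination
      (-2 * (a 0 * b 0 + a 1 * b 1 + a 2 * b 2) * (b 0 * u 0 + b 1 * u 1 + b 2 * u 2)
        + (a 0 * u 0 + a 1 * u 1 + a 2 * u 2) * (b 0 ^ 2 + b 1 ^ 2 + b 2 ^ 2)) * ha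
      + (b 0 * u 0 + b 1 * u 1 + b 2 * u 2) * (a 0 ^ 2 + a 1 ^ 2 + a 2 ^ 2) * hb
  · have := abs_real_inner_le_norm a b
    have h2 : inner ℝ a b ^ 2 ≤ (‖a‖ * ‖b‖) ^ 2 := by
      rw [← sq_abs]
      exact pow_le_pow_left₀ (abs_nonneg _) this 2
    nlinarith

theorem gram_proj {u : E3} (hu : u ≠ 0) (a b : E3) :
    gram (proj u a) (proj u b) = |det3 a b u| / ‖u‖ := by
  have : ‖u‖ ≠ 0 := norm_ne_zero_iff.2 hu
  rw [eq_div_iff this, gram_mul_norm (inner_proj hu a) (inner_proj hu b), det3_proj]

theorem area_proj_par {u : E3} (hu : u ≠ 0) (c a b : E3) (S : Set (ℝ × ℝ)) :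
    μHE[2] (proj u '' (par c a b '' S)) = ENNReal.ofReal (|det3 a b u| / ‖u‖) * volume S := by
  have : proj u '' (par c a b '' S) = par (proj u c) (proj u a) (proj u b) '' S := by
    rw [image_image]
    simp only [proj_par]
  rw [this, area_par, gram_proj hu]

theorem area_triangle {V : Type*} [NormedAddCommGroup V] [InnerProductSpace ℝ V]
    [MeasurableSpace V] [BorelSpace V] (p q r : V) :
    μHE[2] (convexHull ℝ {p, q, r}) = ENNReal.ofReal (gram (q - p) (r - p) / 2) := by
  rw [convexHull_three, area_par, volume_tri, ← ENNReal.ofReal_mul (gram_nonneg _ _)]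
  congr 1
  ring

/-- a bounded subset of a plane has finite area. -/
theorem area_lt_top {u : E3} (hu : u ≠ 0) {S : Set E3} (hS : Bornology.IsBounded S)
    (hSu : ∀ x ∈ S, inner ℝ x u = 0) : μHE[2] S < ⊤ := by
  let W : Submodule ℝ E3 := (ℝ ∙ u)ᗮ
  have hW : Module.finrank ℝ W = 2 := by
    have h1 := (ℝ ∙ u).finrank_add_finrank_orthogonal
    rw [finrank_span_singleton hu, finrank_euclideanSpace_fin] at h1
    simp only [W]
    omega
  have h1 : S = Subtype.val '' ((Subtype.val : W → E3) ⁻¹' S) := by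
    ext x
    constructor
    · intro hx
      refine ⟨⟨x, ?_⟩, hx, rfl⟩
      rw [Submodule.mem_orthogonal_singleton_iff_inner_left]
      exact hSu x hx
    · rintro ⟨y, hy, rfl⟩
      exact hy
  rw [h1, isometry_subtype_coe.euclideanHausdorffMeasure_image, ← hW,
    InnerProductSpace.euclideanHausdorffMeasure_eq_volume]
  apply Bornology.IsBounded.measure_lt_top
  exact (isometry_subtype_coe.antilipschitz).isBounded_preimage hS

/-- a compact subset of a plane lies in a bounded relatively open set of nearly the same area. -/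
theorem exists_open_base {u : E3} (hu : u ≠ 0) {P : Set E3} (hP : IsCompact P)
    (hPu : ∀ x ∈ P, inner ℝ x u = 0) {η : ℝ} (hη : 0 < η) :
    ∃ B : Set E3, Bornology.IsBounded B ∧
      (∃ O : Set E3, IsOpen O ∧ B = O ∩ {x | inner ℝ x u = 0}) ∧ P ⊆ B ∧
      (μHE[2] B).toReal ≤ (μHE[2] P).toReal + η := by
  set H : Set E3 := {x | inner ℝ x u = 0} with hH
  have hHm : MeasurableSet H := by
    apply IsClosed.measurableSet
    exact isClosed_eq (by fun_prop) continuous_const
  let ν : Measure E3 := (μHE[2] : Measure E3).restrict H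
  have hν : ∀ S : Set E3, ν S = μHE[2] (S ∩ H) := fun S => Measure.restrict_apply' hHm
  have hfin : ∀ S : Set E3, Bornology.IsBounded S → ν S ≠ ⊤ := by
    intro S hS
    rw [hν]
    exact (area_lt_top hu (hS.subset inter_subset_left) (fun x hx => hx.2)).ne
  have ht := tendsto_measure_thickening_of_isClosed (μ := ν) (s := P)
    ⟨1, one_pos, hfin _ hP.isBounded.thickening⟩ hP.isClosed
  have ht' := (ENNReal.tendsto_toReal (hfin P hP.isBounded)).comp ht
  have hev := ht'.eventually (ge_mem_nhds (show (ν P).toReal < (ν P).toReal + η by linarith))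
  obtain ⟨r, hr, hr0⟩ := (hev.and self_mem_nhdsWithin).exists
  have hPH : P ∩ H = P := inter_eq_left.2 hPu
  refine ⟨Metric.thickening r P ∩ H, hP.isBounded.thickening.subset inter_subset_left,
    ⟨_, Metric.isOpen_thickening, rfl⟩,
    subset_inter (Metric.self_subset_thickening hr0 P) hPu, ?_⟩
  simpa [hν, hPH] using hr

end Crest.Agent.R211
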