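import Crest.Agent.R211.Std

/-!
From triangular bases to parallelogram bases and to relatively open bases.
-/

open MeasureTheory Set
open scoped ENNReal

noncomputable section

namespace Crest.Agent.R211

theorem gram_smul {V : Type*} [NormedAddCommGroup V] [InnerProductSpace ℝ V] (a b : V) {x y : ℝ}
    (hx : 0 ≤ x) (hy : 0 ≤ y) : gram (x • a) (y • b) = x * y * gram a b := by
  rw [gram, gram, ← Real.sqrt_sq (mul_nonneg hx hy), ← Real.sqrt_mul (sq_nonneg _)]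
  congr 1
  rw [norm_smul, norm_smul, real_inner_smul_left, real_inner_smul_right, Real.norm_eq_abs,
    Real.norm_eq_abs, abs_of_nonneg hx, abs_of_nonneg hy]
  ring

theorem para_eq {V : Type*} [NormedAddCommGroup V] [InnerProductSpace ℝ V] (c a b : V) :
    {x : V | ∃ s ∈ Icc (0 : ℝ) 1, ∃ t ∈ Icc (0 : ℝ) 1, x = c + s • a + t • b} =
      par c a b '' (Icc 0 1 ×ˢ Icc 0 1) := by
  ext x
  constructor
  · rintro ⟨s, hs, t, ht, rfl⟩
    exact ⟨(s, t), ⟨hs, ht⟩, rfl⟩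
  · rintro ⟨z, ⟨hs, ht⟩, rfl⟩
    exact ⟨z.1, hs, z.2, ht, rfl⟩

theorem area_para (c a b : E3) :
    (μHE[2] {x : E3 | ∃ s ∈ Icc (0 : ℝ) 1, ∃ t ∈ Icc (0 : ℝ) 1, x = c + s • a + t • b}).toReal =
      gram a b := by
  rw [para_eq, area_par, Measure.volume_eq_prod, Measure.prod_prod]
  simp [gram_nonneg]

theorem sum_strips {M : ℕ} (hM : 0 < M) :
    ∑ j : Fin M, (1 - (j : ℝ) / M) * (1 / M) = (1 + 1 / M) / 2 := by
  have hM' : (M : ℝ) ≠ 0 := by positivity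
  have h : ∀ n : ℕ, ∑ j ∈ Finset.range n, (j : ℝ) = n * (n - 1) / 2 := by
    intro n
    induction n with
    | zero => simp
    | succ n ih => rw [Finset.sum_range_succ, ih]; push_cast; ring
  rw [← Finset.sum_mul, Finset.sum_sub_distrib, ← Finset.sum_div,
    Fin.sum_univ_eq_sum_range (fun j : ℕ => (j : ℝ)) M, h]
  simp only [Finset.sum_const, Finset.card_univ, Fintype.card_fin, nsmul_eq_mul, mul_one]
  field_simp
  ring

theorem para_cover {ι : Type} [Fintype ι] {K : Set E3} (u p q r : ι → E3) (hu : ∀ i, ‖u i‖ = 1)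
    (ho : ∀ i, inner ℝ (p i) (u i) = 0 ∧ inner ℝ (q i) (u i) = 0 ∧ inner ℝ (r i) (u i) = 0)
    (hK : K ⊆ ⋃ i, cyl (u i) (p i) (q i) (r i)) {M : ℕ} (hM : 0 < M) :
    ∃ (k : ℕ) (u c a b : Fin k → E3), (∀ i, ‖u i‖ = 1) ∧
      (∀ i, inner ℝ (c i) (u i) = 0 ∧ inner ℝ (a i) (u i) = 0 ∧ inner ℝ (b i) (u i) = 0) ∧
      K ⊆ ⋃ i, {x : E3 | ∃ s ∈ Set.Icc (0 : ℝ) 1, ∃ t ∈ Set.Icc (0 : ℝ) 1, ∃ τ : ℝ,
        x = c i + s • a i + t • b i + τ • u i} ∧
      ∑ i, gram (a i) (b i) = (1 + 1 / M) * ∑ i, triArea (p i) (q i) (r i) := by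
  have hM' : (0 : ℝ) < M := by positivity
  let e := (Fintype.equivFin (ι × Fin M)).symm
  let u' : ι × Fin M → E3 := fun z => u z.1
  let c' : ι × Fin M → E3 := fun z => p z.1 + ((z.2 : ℝ) / M) • (r z.1 - p z.1)
  let a' : ι × Fin M → E3 := fun z => (1 - (z.2 : ℝ) / M) • (q z.1 - p z.1)
  let b' : ι × Fin M → E3 := fun z => (1 / M : ℝ) • (r z.1 - p z.1)
  have hj : ∀ j : Fin M, 0 < 1 - (j : ℝ) / M := by
    intro j
    rw [sub_pos, div_lt_one hM']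
    exact_mod_cast j.2
  refine ⟨_, u' ∘ e, c' ∘ e, a' ∘ e, b' ∘ e, fun i => hu _, fun i => ?_, ?_, ?_⟩
  · obtain ⟨h1, h2, h3⟩ := ho (e i).1
    simp only [Function.comp, u', c', a', b', inner_add_left, real_inner_smul_left,
      inner_sub_left, h1, h2, h3, sub_zero, mul_zero, add_zero, and_self]
  · intro x hx
    obtain ⟨i, y, hy, τ, rfl⟩ := mem_iUnion.1 (hK hx)
    rw [convexHull_three] at hy
    obtain ⟨z, ⟨h1, h2, h3⟩, rfl⟩ := hy
    obtain ⟨j, hj1, hj2⟩ := exists_index (h := 1 / M) (t := z.2) (by positivity) hM h2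
      (by rw [mul_one_div_cancel hM'.ne']; linarith)
    rw [mul_one_div] at hj1 hj2
    refine mem_iUnion.2 ⟨e.symm (i, j), z.1 / (1 - (j : ℝ) / M), ⟨div_nonneg h1 (hj j).le, ?_⟩,
      z.2 * M - j, ⟨?_, ?_⟩, τ, ?_⟩
    · rw [div_le_one (hj j)]
      linarith
    · rw [div_le_iff₀ hM'] at hj1
      linarith
    · rw [le_div_iff₀ hM'] at hj2
      linarith
    · simp only [Function.comp, Equiv.apply_symm_apply, u', c', a', b', par, smul_smul]
      have e1 : z.1 / (1 - (j : ℝ) / M) * (1 - (j : ℝ) / M) = z.1 := div_mul_cancel₀ _ (hj j).ne'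
      have e2 : (j : ℝ) / M + (z.2 * M - j) * (1 / M) = z.2 := by field_simp; ring
      rw [e1]
      linear_combination (norm := module) (-e2) • (r i - p i)
  · have := e.sum_comp (fun z => gram (a' z) (b' z))
    simp only [Function.comp]
    rw [this, Fintype.sum_prod_type, Finset.mul_sum]
    refine Finset.sum_congr rfl fun i _ => ?_
    simp only [a', b']
    rw [Finset.sum_congr rfl fun j _ => gram_smul _ _ (hj j).le (by positivity), ← Finset.sum_mul,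
      sum_strips hM, triArea_eq]
    ring

theorem open_cover {ι : Type} [Fintype ι] {K : Set E3} (u : ι → E3) (P : ι → Set E3)
    (hu : ∀ i, ‖u i‖ = 1) (hP : ∀ i, IsCompact (P i)) (ho : ∀ i, ∀ x ∈ P i, inner ℝ x (u i) = 0)
    (hK : K ⊆ ⋃ i, {x : E3 | ∃ y ∈ P i, ∃ τ : ℝ, x = y + τ • u i}) {η : ℝ} (hη : 0 < η) :
    ∃ (k : ℕ) (u : Fin k → E3) (B : Fin k → Set E3), (∀ i, ‖u i‖ = 1) ∧
      (∀ i, Bornology.IsBounded (B i) ∧ ∃ O : Set E3, IsOpen O ∧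
        B i = O ∩ {x | inner ℝ x (u i) = 0}) ∧
      K ⊆ ⋃ i, {x : E3 | ∃ y ∈ B i, ∃ τ : ℝ, x = y + τ • u i} ∧
      ∑ i, (μHE[2] (B i)).toReal ≤ ∑ i, (μHE[2] (P i)).toReal + η := by
  have hu0 : ∀ i, u i ≠ 0 := fun i => by rw [← norm_ne_zero_iff, hu i]; exact one_ne_zero
  have hη' : 0 < η / (Fintype.card ι + 1) := by positivity
  choose B hB1 hB2 hB3 hB4 using fun i => exists_open_base (hu0 i) (hP i) (ho i) hη'
  let e := (Fintype.equivFin ι).symm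
  refine ⟨_, u ∘ e, B ∘ e, fun i => hu _, fun i => ⟨hB1 _, hB2 _⟩, ?_, ?_⟩
  · intro x hx
    obtain ⟨i, y, hy, τ, rfl⟩ := mem_iUnion.1 (hK hx)
    refine mem_iUnion.2 ⟨e.symm i, y, ?_, τ, ?_⟩
    · simpa using hB3 i hy
    · simp
  · have := e.sum_comp (fun i => (μHE[2] (B i)).toReal)
    simp only [Function.comp]
    rw [this]
    refine (Finset.sum_le_sum fun i _ => hB4 i).trans ?_
    rw [Finset.sum_add_distrib, Finset.sum_const, Finset.card_univ, nsmul_eq_mul]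
    gcongr
    rw [← mul_div_assoc, div_le_iff₀ (by positivity)]
    nlinarith

theorem finish_bounds {k : ℕ} (A : Fin k → ℝ) (hA : ∀ i, 0 ≤ A i) (u : Fin k → E3)
    (hu : ∀ i, ‖u i‖ = 1) (P : E3 → ℝ) {m θ : ℝ} (hm : 0 < m) (hθ : θ < 1 / 2)
    (hP : ∀ v, ‖v‖ = 1 → m ≤ P v) (hs : ∑ i, A i ≤ m * θ) :
    (∃ δ : ℝ, 0 < δ ∧ ∀ v : E3, ‖v‖ = 1 → ∑ i, A i + δ ≤ P v / 2) ∧
      ∑ i, A i / P (u i) < 1 / 2 := by
  refine ⟨⟨m * (1 / 2 - θ), mul_pos hm (by linarith), fun v hv => ?_⟩, ?_⟩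
  · have := hP v hv
    linarith
  · calc ∑ i, A i / P (u i) ≤ ∑ i, A i / m :=
          Finset.sum_le_sum fun i _ => div_le_div_of_nonneg_left (hA i) hm (hP _ (hu i))
      _ = (∑ i, A i) / m := by rw [Finset.sum_div]
      _ ≤ θ := by rw [div_le_iff₀ hm]; linarith
      _ < 1 / 2 := hθ

end Crest.Agent.R211
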