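import Crest.Agent.R211.Area

/-!
Lower bound for the projection areas of a regular tetrahedron.
-/

open MeasureTheory Set
open scoped ENNReal

noncomputable section

namespace Crest.Agent.R211

theorem par_tri_subset {X : Set E3} (hX : Convex ℝ X) {P Q R : E3} (hP : P ∈ X) (hQ : Q ∈ X)
    (hR : R ∈ X) : par P (Q - P) (R - P) '' tri ⊆ X := by
  rw [← convexHull_three]
  apply convexHull_min _ hX
  intro x hx
  simp only [mem_insert_iff, mem_singleton_iff] at hx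
  rcases hx with rfl | rfl | rfl <;> assumption

theorem tri_lower {X : Set E3} (hX : Convex ℝ X) {P Q R : E3} (hP : P ∈ X) (hQ : Q ∈ X)
    (hR : R ∈ X) {u : E3} (hu : u ≠ 0) :
    ENNReal.ofReal (|det3 (Q - P) (R - P) u| / ‖u‖ / 2) ≤ μHE[2] (proj u '' X) := by
  have h := area_proj_par hu P (Q - P) (R - P) tri
  rw [volume_tri, ← ENNReal.ofReal_mul (by positivity)] at h
  calc ENNReal.ofReal (|det3 (Q - P) (R - P) u| / ‖u‖ / 2)
      = μHE[2] (proj u '' (par P (Q - P) (R - P) '' tri)) := by rw [h]; congr 1; ring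
    _ ≤ _ := measure_mono (image_mono (par_tri_subset hX hP hQ hR))

theorem det3_proj_par (P a b u : E3) (z : ℝ × ℝ) :
    det3 a (proj u (par P a b z) - P) u = z.2 * det3 a b u := by
  simp only [det3, proj, par, PiLp.sub_apply, PiLp.add_apply, PiLp.smul_apply, smul_eq_mul]
  ring

theorem two_tri_lower {X : Set E3} (hX : Convex ℝ X) {P Q R S : E3} (hP : P ∈ X) (hQ : Q ∈ X)
    (hR : R ∈ X) (hS : S ∈ X) {u : E3} (hu : u ≠ 0) (h1 : 0 < det3 (Q - P) (R - P) u)
    (h2 : det3 (Q - P) (S - P) u ≤ 0) :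
    ENNReal.ofReal ((|det3 (Q - P) (R - P) u| + |det3 (Q - P) (S - P) u|) / ‖u‖ / 2)
      ≤ μHE[2] (proj u '' X) := by
  set H : Set E3 := {y | 0 < det3 (Q - P) (y - P) u} with hH
  have hHm : MeasurableSet H := by
    apply IsOpen.measurableSet
    apply isOpen_lt continuous_const
    unfold det3
    fun_prop
  rw [← measure_inter_add_sdiff (proj u '' X) hHm]
  have ha := area_proj_par hu P (Q - P) (R - P) triO
  rw [volume_triO, ← ENNReal.ofReal_mul (by positivity)] at ha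
  have hb := area_proj_par hu P (Q - P) (S - P) tri
  rw [volume_tri, ← ENNReal.ofReal_mul (by positivity)] at hb
  have hsub : triO ⊆ tri := fun z hz => ⟨hz.1.le, hz.2.1.le, hz.2.2.le⟩
  have ia : proj u '' (par P (Q - P) (R - P) '' triO) ⊆ proj u '' X ∩ H := by
    apply subset_inter
    · exact image_mono ((image_mono hsub).trans (par_tri_subset hX hP hQ hR))
    · rintro _ ⟨_, ⟨z, hz, rfl⟩, rfl⟩
      simp only [hH, mem_ofPred_eq, det3_proj_par]
      exact mul_pos hz.2.1 h1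
  have ib : proj u '' (par P (Q - P) (S - P) '' tri) ⊆ proj u '' X \ H := by
    intro y hy
    refine ⟨image_mono (par_tri_subset hX hP hQ hS) hy, ?_⟩
    obtain ⟨_, ⟨z, hz, rfl⟩, rfl⟩ := hy
    simp only [hH, mem_ofPred_eq, det3_proj_par, not_lt]
    exact mul_nonpos_of_nonneg_of_nonpos hz.2.1 h2
  calc ENNReal.ofReal ((|det3 (Q - P) (R - P) u| + |det3 (Q - P) (S - P) u|) / ‖u‖ / 2)
      = μHE[2] (proj u '' (par P (Q - P) (R - P) '' triO)) +
        μHE[2] (proj u '' (par P (Q - P) (S - P) '' tri)) := by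
        rw [ha, hb, ← ENNReal.ofReal_add (by positivity) (by positivity)]
        congr 1
        ring
    _ ≤ _ := add_le_add (measure_mono ia) (measure_mono ib)

theorem quad_lower {X : Set E3} (hX : Convex ℝ X) {P Q R S : E3} (hP : P ∈ X) (hQ : Q ∈ X)
    (hR : R ∈ X) (hS : S ∈ X) {u : E3} (hu : u ≠ 0) :
    ENNReal.ofReal (|det3 (Q - P) (S - R) u| / ‖u‖ / 2) ≤ μHE[2] (proj u '' X) := by
  have hd : det3 (Q - P) (S - R) u = det3 (Q - P) (S - P) u - det3 (Q - P) (R - P) u := by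
    simp only [det3, PiLp.sub_apply]
    ring
  have hn : 0 < ‖u‖ := norm_pos_iff.2 hu
  have t1 := tri_lower hX hP hQ hR hu
  have t2 := tri_lower hX hP hQ hS hu
  rw [hd]
  set d1 := det3 (Q - P) (R - P) u
  set d2 := det3 (Q - P) (S - P) u
  have mono : ∀ x y : ℝ, x ≤ y → x / ‖u‖ / 2 ≤ y / ‖u‖ / 2 := fun x y h => by gcongr
  by_cases h1 : 0 < d1
  · by_cases h2 : d2 ≤ 0
    · refine le_trans (ENNReal.ofReal_le_ofReal ?_) (two_tri_lower hX hP hQ hR hS hu h1 h2)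
      gcongr
      rw [add_comm]
      exact abs_sub _ _
    · push Not at h2
      rcases le_total d1 d2 with h | h
      · refine le_trans (ENNReal.ofReal_le_ofReal ?_) t2
        apply mono
        rw [abs_of_nonneg (by linarith), abs_of_pos h2]
        linarith
      · refine le_trans (ENNReal.ofReal_le_ofReal ?_) t1
        apply mono
        rw [abs_of_nonpos (by linarith), abs_of_pos h1]
        linarith
  · push Not at h1
    by_cases h2 : 0 < d2
    · refine le_trans (ENNReal.ofReal_le_ofReal ?_) (two_tri_lower hX hP hQ hS hR hu h2 h1)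
      gcongr
      exact abs_sub _ _
    · push Not at h2
      rcases le_total d1 d2 with h | h
      · refine le_trans (ENNReal.ofReal_le_ofReal ?_) t1
        apply mono
        rw [abs_of_nonneg (by linarith), abs_of_nonpos h1]
        linarith
      · refine le_trans (ENNReal.ofReal_le_ofReal ?_) t2
        apply mono
        rw [abs_of_nonpos (by linarith), abs_of_nonpos h2]
        linarith

/-- an orthogonal frame with squared lengths `l², l², 2 l²`. -/
structure Frame (l : ℝ) (f₁ f₂ f₃ : E3) : Prop where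
  n1 : ‖f₁‖ ^ 2 = l ^ 2
  n2 : ‖f₂‖ ^ 2 = l ^ 2
  n3 : ‖f₃‖ ^ 2 = 2 * l ^ 2
  i12 : inner ℝ f₁ f₂ = 0
  i13 : inner ℝ f₁ f₃ = 0
  i23 : inner ℝ f₂ f₃ = 0

theorem det3_sq (a b c : E3) : det3 a b c ^ 2 =
    ‖a‖ ^ 2 * ‖b‖ ^ 2 * ‖c‖ ^ 2 + 2 * inner ℝ a b * inner ℝ a c * inner ℝ b c
      - ‖a‖ ^ 2 * inner ℝ b c ^ 2 - ‖b‖ ^ 2 * inner ℝ a c ^ 2 - ‖c‖ ^ 2 * inner ℝ a b ^ 2 := by
  simp only [normSq3, inner3, det3]
  ring

theorem cramer3 (a b c v : E3) :
    det3 a b c • v = det3 v b c • a + det3 a v c • b + det3 a b v • c := by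
  ext i
  fin_cases i <;> simp [det3] <;> ring

theorem normSq_orth {a b c : E3} (h1 : inner ℝ a b = 0) (h2 : inner ℝ a c = 0)
    (h3 : inner ℝ b c = 0) (x y z : ℝ) :
    ‖x • a + y • b + z • c‖ ^ 2 = x ^ 2 * ‖a‖ ^ 2 + y ^ 2 * ‖b‖ ^ 2 + z ^ 2 * ‖c‖ ^ 2 := by
  rw [inner3] at h1 h2 h3
  simp only [normSq3, PiLp.add_apply, PiLp.smul_apply, smul_eq_mul]
  linear_combination 2 * x * y * h1 + 2 * x * z * h2 + 2 * y * z * h3

theorem Frame.det_sq {l : ℝ} {f₁ f₂ f₃ : E3} (h : Frame l f₁ f₂ f₃) :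
    det3 f₁ f₂ f₃ ^ 2 = 2 * l ^ 6 := by
  rw [det3_sq, h.n1, h.n2, h.n3, h.i12, h.i13, h.i23]
  ring

theorem sq_le_of_bounds {a b c M : ℝ} (ha : 0 ≤ a) (hb : 0 ≤ b) (hc : 0 ≤ c) (h1 : a + b ≤ M)
    (h2 : a + c ≤ M) (h3 : b + c ≤ M) (h4 : 2 * c ≤ M) : a ^ 2 + b ^ 2 + 2 * c ^ 2 ≤ M ^ 2 := by
  rcases le_total a c with hac | hac <;> rcases le_total b c with hbc | hbc
  · have : (2 * c) ^ 2 ≤ M ^ 2 := pow_le_pow_left₀ (by linarith) h4 2
    nlinarith
  · have : (b + c) ^ 2 ≤ M ^ 2 := pow_le_pow_left₀ (by linarith) h3 2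
    nlinarith
  · have : (a + c) ^ 2 ≤ M ^ 2 := pow_le_pow_left₀ (by linarith) h2 2
    nlinarith
  · have : (a + b) ^ 2 ≤ M ^ 2 := pow_le_pow_left₀ (by linarith) h1 2
    nlinarith [mul_le_mul hac hbc hc ha]

theorem abs_add_abs_le {x y M : ℝ} (h1 : |x + y| ≤ M) (h2 : |x - y| ≤ M) : |x| + |y| ≤ M := by
  rw [abs_le] at h1 h2
  rcases abs_cases x with h | h <;> rcases abs_cases y with h' | h' <;> linarith [h1.1, h1.2, h2.1, h2.2]

theorem proj_image_lt_top {X : Set E3} (hX : Bornology.IsBounded X) {u : E3} (hu : u ≠ 0) :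
    μHE[2] (proj u '' X) < ⊤ := by
  apply area_lt_top hu
  · exact ((hX.isCompact_closure.image (continuous_proj u)).isBounded).subset
      (image_mono subset_closure)
  · rintro _ ⟨y, _, rfl⟩
    exact inner_proj hu y

theorem frame_proj_lower {l : ℝ} (hl : 0 < l) {o f₁ f₂ f₃ : E3} (h : Frame l f₁ f₂ f₃)
    {X : Set E3} (hX : Convex ℝ X) (hXb : Bornology.IsBounded X) (hA : o + f₁ ∈ X)
    (hB : o - f₁ ∈ X) (hC : o + f₂ + f₃ ∈ X) (hD : o - f₂ + f₃ ∈ X) {v : E3} (hv : ‖v‖ = 1) :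
    Real.sqrt 2 * l ^ 2 ≤ (μHE[2] (proj v '' X)).toReal := by
  have hv0 : v ≠ 0 := by
    rintro rfl
    simp at hv
  have hfin := (proj_image_lt_top hXb hv0).ne
  set M := (μHE[2] (proj v '' X)).toReal with hM
  have key : ∀ {P Q R S : E3}, P ∈ X → Q ∈ X → R ∈ X → S ∈ X →
      |det3 (Q - P) (S - R) v| / 2 ≤ M := by
    intro P Q R S hP hQ hR hS
    have := quad_lower hX hP hQ hR hS hv0
    rw [hv, div_one] at this
    exact (ENNReal.ofReal_le_iff_le_toReal hfin).1 this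
  set d1 := det3 v f₂ f₃ with hd1
  set d2 := det3 f₁ v f₃ with hd2
  set d3 := det3 f₁ f₂ v with hd3
  have e0 : d1 ^ 2 + d2 ^ 2 + 2 * d3 ^ 2 = 2 * l ^ 4 := by
    have c : ‖det3 f₁ f₂ f₃ • v‖ ^ 2 = ‖d1 • f₁ + d2 • f₂ + d3 • f₃‖ ^ 2 := by
      rw [cramer3 f₁ f₂ f₃ v]
    rw [normSq_orth h.i12 h.i13 h.i23, norm_smul, hv, mul_one, Real.norm_eq_abs, sq_abs, h.det_sq,
      h.n1, h.n2, h.n3] at c
    have hl2 : l ^ 2 ≠ 0 := by positivity
    apply mul_left_cancel₀ hl2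
    linear_combination -c
  have k1 : 2 * |d3| ≤ M := by
    have := key hB hA hD hC
    have e : det3 (o + f₁ - (o - f₁)) (o + f₂ + f₃ - (o - f₂ + f₃)) v = 4 * d3 := by
      simp only [hd3, det3, PiLp.sub_apply, PiLp.add_apply]; ring
    rw [e, abs_mul] at this
    norm_num at this
    linarith
  have k2 : |d1 + d2| ≤ M := by
    have this2 := key hA hC hB hD
    have e2 : det3 (o + f₂ + f₃ - (o + f₁)) (o - f₂ + f₃ - (o - f₁)) v = 2 * (d1 + d2) := by
      simp only [hd1, hd2, det3, PiLp.sub_apply, PiLp.add_apply]; ring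
    rw [e2, abs_mul] at this2
    norm_num at this2
    linarith
  have k3 : |d1 - d2| ≤ M := by
    have := key hA hD hB hC
    have e : det3 (o - f₂ + f₃ - (o + f₁)) (o + f₂ + f₃ - (o - f₁)) v = -2 * (d1 - d2) := by
      simp only [hd1, hd2, det3, PiLp.sub_apply, PiLp.add_apply]; ring
    rw [e, abs_mul] at this
    norm_num at this
    linarith
  have k4 : |d2 - d3| ≤ M := by
    have := key hA hB hA hC
    have e : det3 (o - f₁ - (o + f₁)) (o + f₂ + f₃ - (o + f₁)) v = 2 * (d2 - d3) := by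
      simp only [hd2, hd3, det3, PiLp.sub_apply, PiLp.add_apply]; ring
    rw [e, abs_mul] at this
    norm_num at this
    linarith
  have k5 : |d2 + d3| ≤ M := by
    have := key hA hB hA hD
    have e : det3 (o - f₁ - (o + f₁)) (o - f₂ + f₃ - (o + f₁)) v = 2 * (d2 + d3) := by
      simp only [hd2, hd3, det3, PiLp.sub_apply, PiLp.add_apply]; ring
    rw [e, abs_mul] at this
    norm_num at this
    linarith
  have k6 : |d1 + d3| ≤ M := by
    have this2 := key hD hC hD hA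
    have e2 : det3 (o + f₂ + f₃ - (o - f₂ + f₃)) (o + f₁ - (o - f₂ + f₃)) v = -2 * (d1 + d3) := by
      simp only [hd1, hd3, det3, PiLp.sub_apply, PiLp.add_apply]; ring
    rw [e2, abs_mul] at this2
    norm_num at this2
    linarith
  have k7 : |d1 - d3| ≤ M := by
    have := key hD hC hD hB
    have e : det3 (o + f₂ + f₃ - (o - f₂ + f₃)) (o - f₁ - (o - f₂ + f₃)) v = -2 * (d1 - d3) := by
      simp only [hd1, hd3, det3, PiLp.sub_apply, PiLp.add_apply]; ring
    rw [e, abs_mul] at this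
    norm_num at this
    linarith
  have hsq := sq_le_of_bounds (abs_nonneg d1) (abs_nonneg d2) (abs_nonneg d3)
    (abs_add_abs_le k2 k3) (abs_add_abs_le k6 k7) (abs_add_abs_le k5 k4) k1
  rw [sq_abs, sq_abs, sq_abs, e0] at hsq
  have hM0 : 0 ≤ M := ENNReal.toReal_nonneg
  apply le_of_sq_le_sq _ hM0
  rw [mul_pow, Real.sq_sqrt (by norm_num)]
  linarith

/-- four equidistant points come from a frame. -/
theorem exists_frame (w : Fin 4 → E3) (ℓ : ℝ) (hw : ∀ i j, i ≠ j → dist (w i) (w j) = ℓ) :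
    ∃ o f₁ f₂ f₃ : E3, Frame (ℓ / 2) f₁ f₂ f₃ ∧ w 0 = o + f₁ ∧ w 1 = o - f₁ ∧
      w 2 = o + f₂ + f₃ ∧ w 3 = o - f₂ + f₃ := by
  have h : ∀ i j, i ≠ j → (w i 0 - w j 0) ^ 2 + (w i 1 - w j 1) ^ 2 + (w i 2 - w j 2) ^ 2
      = ℓ ^ 2 := by
    intro i j hij
    rw [← hw i j hij, dist_eq_norm, normSq3]
    simp
  have h01 := h 0 1 (by decide)
  have h02 := h 0 2 (by decide)
  have h03 := h 0 3 (by decide)
  have h12 := h 1 2 (by decide)
  have h13 := h 1 3 (by decide)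
  have h23 := h 2 3 (by decide)
  refine ⟨(1 / 2 : ℝ) • (w 0 + w 1), (1 / 2 : ℝ) • (w 0 - w 1), (1 / 2 : ℝ) • (w 2 - w 3),
    (1 / 2 : ℝ) • (w 2 + w 3 - (w 0 + w 1)), ⟨?_, ?_, ?_, ?_, ?_, ?_⟩, by module, by module,
    by module, by module⟩
  all_goals
    simp only [normSq3, inner3, PiLp.smul_apply, PiLp.add_apply, PiLp.sub_apply, smul_eq_mul]
    linarith

/-- coordinates of the points of the tetrahedron in its frame. -/
theorem mem_tet_coords {o f₁ f₂ f₃ : E3} {T : Set E3}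
    (hT : ∀ p ∈ T, p = o + f₁ ∨ p = o - f₁ ∨ p = o + f₂ + f₃ ∨ p = o - f₂ + f₃) {z : E3}
    (hz : z ∈ convexHull ℝ T) :
    ∃ x y α : ℝ, |y| ≤ α ∧ |x| ≤ 1 - α ∧ z = o + x • f₁ + y • f₂ + α • f₃ := by
  refine convexHull_min (t := {z | ∃ x y α : ℝ, |y| ≤ α ∧ |x| ≤ 1 - α ∧
    z = o + x • f₁ + y • f₂ + α • f₃}) ?_ ?_ hz
  · intro p hp
    rcases hT p hp with rfl | rfl | rfl | rfl
    · exact ⟨1, 0, 0, by simp, by simp, by module⟩
    · exact ⟨-1, 0, 0, by simp, by simp, by module⟩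
    · exact ⟨0, 1, 1, by simp, by simp, by module⟩
    · exact ⟨0, -1, 1, by simp, by simp, by module⟩
  · rintro _ ⟨x, y, α, h1, h2, rfl⟩ _ ⟨x', y', α', h1', h2', rfl⟩ a b ha hb hab
    refine ⟨a * x + b * x', a * y + b * y', a * α + b * α', ?_, ?_, ?_⟩
    · rw [abs_le] at *
      constructor <;> nlinarith [h1.1, h1.2, h1'.1, h1'.2]
    · rw [abs_le] at *
      constructor <;> nlinarith [h2.1, h2.2, h2'.1, h2'.2]
    · have hb' : b = 1 - a := by linarith
      subst hb'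
      module

end Crest.Agent.R211
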