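import Crest.Agent.R211.SquareCore

/-!
Covers of ruled sets by sheared cylinders over squares: the local and the global statement.
-/

open MeasureTheory Set Metric
open scoped ENNReal

noncomputable section

namespace Crest.Agent.R211

/-- an orthonormal frame of the plane. -/
structure Frame2 (e₁ e₂ : E2) : Prop where
  n1 : ‖e₁‖ = 1
  n2 : ‖e₂‖ = 1
  i12 : inner ℝ e₁ e₂ = 0
  span : ∀ v : E2, v = inner ℝ v e₁ • e₁ + inner ℝ v e₂ • e₂

theorem Frame2.inner1 {e₁ e₂ : E2} (h : Frame2 e₁ e₂) (x y : ℝ) :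
    inner ℝ (x • e₁ + y • e₂) e₁ = x := by
  rw [inner_add_left, real_inner_smul_left, real_inner_smul_left, real_inner_self_eq_norm_sq, h.n1,
    real_inner_comm, h.i12]
  ring

theorem Frame2.inner2 {e₁ e₂ : E2} (h : Frame2 e₁ e₂) (x y : ℝ) :
    inner ℝ (x • e₁ + y • e₂) e₂ = y := by
  rw [inner_add_left, real_inner_smul_left, real_inner_smul_left, real_inner_self_eq_norm_sq, h.n2,
    h.i12]
  ring

theorem Frame2.norm_le {e₁ e₂ : E2} (h : Frame2 e₁ e₂) (x y : ℝ) :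
    ‖x • e₁ + y • e₂‖ ≤ |x| + |y| := by
  refine (norm_add_le _ _).trans ?_
  rw [norm_smul, norm_smul, h.n1, h.n2, mul_one, mul_one, Real.norm_eq_abs, Real.norm_eq_abs]

theorem Frame2.dist_le {e₁ e₂ : E2} (h : Frame2 e₁ e₂) (x y : ℝ) (p : E2) :
    dist (x • e₁ + y • e₂) p ≤ |x - inner ℝ p e₁| + |y - inner ℝ p e₂| := by
  rw [dist_eq_norm]
  have : x • e₁ + y • e₂ - p = (x - inner ℝ p e₁) • e₁ + (y - inner ℝ p e₂) • e₂ := by
    conv_lhs => rw [h.span p]
    module
  rw [this]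
  exact h.norm_le _ _

theorem Frame2.volume_image {e₁ e₂ : E2} (h : Frame2 e₁ e₂) (S : Set (ℝ × ℝ)) :
    volume (par 0 e₁ e₂ '' S) = volume S := by
  have := area_par 0 e₁ e₂ S
  rw [EuclideanSpace.euclideanHausdorffMeasure_eq_volume, gram, h.n1, h.n2, h.i12] at this
  simpa using this

theorem local_cov {J : E2 → ℝ} {V : E2 → E2} {L : ℝ} (hL : 0 < L) {e₁ e₂ : E2}
    (hfr : Frame2 e₁ e₂) {p₀ : E2} {r m n η J₀ : ℝ} (hr : 0 < r) (hmn0 : 0 ≤ m * n)
    (hmn : L ^ 2 * (m * n) ≤ 1) (hη : 0 < η) (hη1 : η ≤ 1) (hLη : L * η ≤ 1 / 2)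
    (hV : ∀ p ∈ ball p₀ (2 * r), ∀ q ∈ ball p₀ (2 * r),
      |inner ℝ (V p - V q) e₁ - m * inner ℝ (p - q) e₂| ≤ η * ‖p - q‖ ∧
      |inner ℝ (V p - V q) e₂ - n * inner ℝ (p - q) e₁| ≤ η * ‖p - q‖)
    (hJ₀ : 0 ≤ J₀) (hJ : ∀ q ∈ ball p₀ (2 * r), J (V q) ≤ J₀) {S : Set E2} (hS : IsCompact S)
    (hSr : S ⊆ closedBall p₀ r) {ε : ℝ} (hε : 0 < ε) :
    Cov J (ruled V L S) (J₀ * ((1 + L * η) *
      (1 + η * (L * |n| + 2 * L ^ 2 * |n| * (L * |m| + 2) + 2 * L * (L * |m| + 3)) +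
        (1 + L * η) * η)) * ((volume S).toReal + ε)) := by
  set C₂ := L * |n| + 2 * L ^ 2 * |n| * (L * |m| + 2) + 2 * L * (L * |m| + 3) with hC₂
  have hC₂0 : 0 ≤ C₂ := by positivity
  set C₁ := L * |m| + 2 with hC₁
  have hC₁0 : 0 < C₁ := by positivity
  -- choice of the scale
  obtain ⟨ρ, hρ0, hρr, hρv⟩ : ∃ ρ : ℝ, 0 < ρ ∧ ρ < r ∧
      (volume (cthickening ρ S)).toReal ≤ (volume S).toReal + ε := by
    have ht := tendsto_measure_cthickening_of_isCompact (μ := (volume : Measure E2)) hS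
    have ht' := (ENNReal.tendsto_toReal hS.measure_lt_top.ne).comp ht
    have hev := ht'.eventually (ge_mem_nhds
      (show (volume S).toReal < (volume S).toReal + ε by linarith))
    have hev2 : ∀ᶠ ρ in nhdsWithin (0 : ℝ) (Ioi 0), ρ < r :=
      mem_nhdsWithin_of_mem_nhds (gt_mem_nhds hr)
    obtain ⟨ρ, ⟨h1, h2⟩, h3⟩ :=
      (((hev.filter_mono nhdsWithin_le_nhds).and hev2).and self_mem_nhdsWithin).exists
    exact ⟨ρ, h3, h2, h1⟩
  set δ := ρ / (C₁ + 3) with hδ
  have hδ0 : 0 < δ := by positivity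
  have hδρ : (C₁ + 3) * δ = ρ := by rw [hδ]; field_simp
  have hηδ : 0 < η * δ := by positivity
  have hηδ' : η * δ ≤ δ := by nlinarith
  let pt : ℝ → ℝ → E2 := fun x y => x • e₁ + y • e₂
  let I : Set (ℤ × ℤ) := {z | ∃ p ∈ S, |z.1 * (η * δ) - inner ℝ p e₁| ≤ C₁ * δ ∧
    |z.2 * δ - inner ℝ p e₂| ≤ δ}
  let W : Set (ℝ × ℝ) := par 0 e₁ e₂ ⁻¹' cthickening ρ S
  have hWv : volume W ≤ volume (cthickening ρ S) := by
    rw [← hfr.volume_image W]
    exact measure_mono (image_preimage_subset _ _)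
  have hfin : volume (cthickening ρ S) ≠ ⊤ := hS.isBounded.cthickening.measure_lt_top.ne
  have hIW : ∀ z ∈ I, rect (η * δ) δ z ⊆ W := by
    rintro z ⟨p, hp, h1, h2⟩ w ⟨hw1, hw2⟩
    apply mem_cthickening_of_dist_le _ p ρ S hp
    have := hfr.dist_le w.1 w.2 p
    simp only [par, zero_add]
    refine this.trans ?_
    have h3 := abs_le.1 h1
    have h4 := abs_le.1 h2
    have h5 : |w.1 - inner ℝ p e₁| ≤ (C₁ + 1) * δ := by
      rw [abs_le]
      constructor <;> linarith [hw1.1, hw1.2, h3.1, h3.2]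
    have h6 : |w.2 - inner ℝ p e₂| ≤ 2 * δ := by
      rw [abs_le]
      constructor <;> linarith [hw2.1, hw2.2, h4.1, h4.2]
    linarith
  obtain ⟨T, hT, hcard⟩ := exists_finset_rect hηδ hδ0 I (ne_top_of_le_ne_top hfin hWv) hIW
  have hcard' : T.card * (η * δ * δ) ≤ (volume S).toReal + ε :=
    hcard.trans ((ENNReal.toReal_mono hfin hWv).trans hρv)
  set σ := (1 + L * η) * (η * δ) with hσ
  have hσ0 : 0 < σ := by positivity
  set H := δ * (1 + η * C₂) with hH
  have hH0 : 0 < H := by positivity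
  set N := ⌈H / σ⌉₊ with hN
  have hN0 : 0 < N := Nat.ceil_pos.2 (by positivity)
  have hN1 : H ≤ N * σ := by
    have := Nat.le_ceil (H / σ)
    rwa [div_le_iff₀ hσ0] at this
  have hN2 : N * σ ≤ H + σ := by
    have := (Nat.ceil_lt_add_one (by positivity : 0 ≤ H / σ)).le
    have h2 := mul_le_mul_of_nonneg_right this hσ0.le
    rw [add_mul, div_mul_cancel₀ _ hσ0.ne', one_mul] at h2
    exact h2
  have hball : ∀ p ∈ S, ∀ x y : ℝ, |x - inner ℝ p e₁| ≤ C₁ * δ → |y - inner ℝ p e₂| ≤ δ →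
      pt x y ∈ ball p₀ (2 * r) := by
    intro p hp x y hx hy
    have h1 := hfr.dist_le x y p
    have h2 : dist p p₀ ≤ r := hSr hp
    have h3 := dist_triangle (pt x y) p p₀
    rw [mem_ball]
    simp only [pt] at h3 ⊢
    linarith
  refine Cov.of_fintype (ι := T × Fin N)
    (fun i => pt (i.1.1.1 * (η * δ) - σ / 2) (i.1.1.2 * δ - H / 2 + i.2 * σ))
    (fun _ => σ • e₁) (fun _ => σ • e₂) (fun i => V (pt (i.1.1.1 * (η * δ)) (i.1.1.2 * δ)))
    (fun _ => ⟨?_, ?_, ?_⟩) ?_ ?_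
  · rw [← norm_ne_zero_iff, norm_smul, hfr.n1, mul_one, Real.norm_eq_abs, abs_of_pos hσ0]
    exact hσ0.ne'
  · rw [norm_smul, norm_smul, hfr.n1, hfr.n2]
  · rw [real_inner_smul_left, real_inner_smul_right, hfr.i12, mul_zero, mul_zero]
  · rintro ⟨s, ξ⟩ ⟨p, hp, hs, hξ⟩
    simp only at hs hξ
    have hdiff : ∀ x y x' y' : ℝ, pt x y - pt x' y' = (x - x') • e₁ + (y - y') • e₂ := by
      intro x y x' y'
      simp only [pt]
      module
    obtain ⟨j, k, h1, h2, h3, h4⟩ := core_real (F := fun x y => inner ℝ (V (pt x y)) e₁)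
      (G := fun x y => inner ℝ (V (pt x y)) e₂) (Ω := {z | pt z.1 z.2 ∈ ball p₀ (2 * r)})
      (m := m) (n := n) (η := η) (L := L) (δ := δ)
      (fun x y x' y' hp hq => by
        have := (hV _ hp _ hq).1
        simp only at this
        rw [hdiff, hfr.inner2, inner_sub_left] at this
        exact this.trans (mul_le_mul_of_nonneg_left (hfr.norm_le _ _) hη.le))
      (fun x y x' y' hp hq => by
        have := (hV _ hp _ hq).2
        simp only at this
        rw [hdiff, hfr.inner1, inner_sub_left] at this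
        exact this.trans (mul_le_mul_of_nonneg_left (hfr.norm_le _ _) hη.le))
      hL hmn0 hmn hη hη1 hLη hδ0 (x := inner ℝ p e₁) (y := inner ℝ p e₂) hs
      (fun x' y' hx hy => hball p hp x' y' hx hy)
    have hpp : pt (inner ℝ p e₁) (inner ℝ p e₂) = p := (hfr.span p).symm
    simp only [hpp] at h3 h4
    set g := V (pt (k * (η * δ)) (j * δ)) with hg
    set X := inner ℝ p e₁ + s * inner ℝ (V p) e₁ - k * (η * δ) - s * inner ℝ g e₁ with hX
    set Y := inner ℝ p e₂ + s * inner ℝ (V p) e₂ - j * δ - s * inner ℝ g e₂ with hY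
    have h3' := abs_le.1 h3
    have h4' : |Y| ≤ H / 2 := h4
    have h4'' := abs_le.1 h4'
    obtain ⟨l, hl1, hl2⟩ := exists_index (t := Y + H / 2) (h := σ) hσ0 hN0 (by linarith [h4''.1])
      (by linarith [h4''.2])
    have hmem : (k, j) ∈ T := (hT _).2 ⟨p, hp, h1, h2⟩
    refine mem_iUnion.2 ⟨(⟨(k, j), hmem⟩, l), (X + σ / 2) / σ, ⟨?_, ?_⟩,
      (Y + H / 2 - l * σ) / σ, ⟨?_, ?_⟩, ?_⟩
    · exact div_nonneg (by linarith [h3'.1]) hσ0.le
    · rw [div_le_one hσ0]; linarith [h3'.2]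
    · exact div_nonneg (by linarith) hσ0.le
    · rw [div_le_one hσ0]; linarith
    · simp only [hξ, smul_smul, div_mul_cancel₀ _ hσ0.ne', ← hg, pt]
      have a1 := hfr.span p
      have a2 := hfr.span (V p)
      have a3 := hfr.span g
      simp only [hX, hY]
      linear_combination (norm := module) a1 + s • a2 - s • a3
  · have hb : ∀ i : T × Fin N,
        ‖σ • e₁‖ ^ 2 * J (V (pt (i.1.1.1 * (η * δ)) (i.1.1.2 * δ))) ≤ σ ^ 2 * J₀ := by
      intro i
      obtain ⟨p, hp, h1, h2⟩ := (hT _).1 i.1.2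
      rw [norm_smul, hfr.n1, mul_one, Real.norm_eq_abs, sq_abs]
      exact mul_le_mul_of_nonneg_left (hJ _ (hball p hp _ _ h1 h2)) (sq_nonneg σ)
    refine (Finset.sum_le_sum fun i _ => hb i).trans ?_
    rw [Finset.sum_const, Finset.card_univ, Fintype.card_prod, Fintype.card_coe, Fintype.card_fin,
      nsmul_eq_mul]
    push_cast
    have hT0 : (0 : ℝ) ≤ T.card := Nat.cast_nonneg _
    calc (T.card : ℝ) * N * (σ ^ 2 * J₀) = J₀ * σ * T.card * (N * σ) := by ring
      _ ≤ J₀ * σ * T.card * (H + σ) := by gcongr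
      _ = J₀ * ((1 + L * η) * (1 + η * C₂ + (1 + L * η) * η)) * (T.card * (η * δ * δ)) := by
          rw [hσ, hH]; ring
      _ ≤ _ := by gcongr

theorem inner2 (a b : E2) : inner ℝ a b = a 0 * b 0 + a 1 * b 1 := by
  simp [PiLp.inner_apply, Fin.sum_univ_two, mul_comm]

theorem exists_frame2 (M : E2 →L[ℝ] E2) (htr : LinearMap.trace ℝ _ M.toLinearMap = 0) :
    ∃ (e₁ e₂ : E2) (m n : ℝ), Frame2 e₁ e₂ ∧ (∀ v, inner ℝ (M v) e₁ = m * inner ℝ v e₂) ∧
      (∀ v, inner ℝ (M v) e₂ = n * inner ℝ v e₁) ∧ LinearMap.det M.toLinearMap = -(m * n) := by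
  let bb := (EuclideanSpace.basisFun (Fin 2) ℝ).toBasis
  set A := M (EuclideanSpace.single 0 1) 0 with hA
  set B := M (EuclideanSpace.single 1 1) 0 with hB
  set C := M (EuclideanSpace.single 0 1) 1 with hC
  set D := M (EuclideanSpace.single 1 1) 1 with hD
  have hmat : LinearMap.toMatrix bb bb M.toLinearMap = !![A, B; C, D] := by
    ext i j
    fin_cases i <;> fin_cases j <;> simp [bb, LinearMap.toMatrix_apply, hA, hB, hC, hD]
  have htr' : A + D = 0 := by
    rw [LinearMap.trace_eq_matrix_trace ℝ bb, hmat, Matrix.trace_fin_two] at htr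
    simpa using htr
  have hdet : LinearMap.det M.toLinearMap = A * D - B * C := by
    rw [← LinearMap.det_toMatrix bb, hmat, Matrix.det_fin_two]
    simp
  have hM : ∀ v : E2, M v 0 = A * v 0 + B * v 1 ∧ M v 1 = C * v 0 + D * v 1 := by
    intro v
    have : v = v 0 • EuclideanSpace.single 0 1 + v 1 • EuclideanSpace.single 1 1 := by
      ext i
      fin_cases i <;> simp
    constructor
    · conv_lhs => rw [this]
      simp only [map_add, map_smul, PiLp.add_apply, PiLp.smul_apply, smul_eq_mul, ← hA, ← hB]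
      ring
    · conv_lhs => rw [this]
      simp only [map_add, map_smul, PiLp.add_apply, PiLp.smul_apply, smul_eq_mul, ← hC, ← hD]
      ring
  obtain ⟨c, s, hcs, h0⟩ : ∃ c s : ℝ, c ^ 2 + s ^ 2 = 1 ∧
      A * (c ^ 2 - s ^ 2) + (B + C) * (c * s) = 0 := by
    let φ : ℝ → ℝ := fun θ => A * (Real.cos θ ^ 2 - Real.sin θ ^ 2) +
      (B + C) * (Real.cos θ * Real.sin θ)
    have hφ : Continuous φ := by fun_prop
    have hmem : (0 : ℝ) ∈ uIcc (φ 0) (φ (Real.pi / 2)) := by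
      simp only [φ, Real.cos_zero, Real.sin_zero, Real.cos_pi_div_two, Real.sin_pi_div_two]
      rw [mem_uIcc]
      rcases le_total 0 A with h | h
      · right; constructor <;> linarith
      · left; constructor <;> linarith
    obtain ⟨θ, -, hθ⟩ := intermediate_value_uIcc hφ.continuousOn hmem
    exact ⟨Real.cos θ, Real.sin θ, Real.cos_sq_add_sin_sq θ, hθ⟩
  have hD' : D = -A := by linarith
  refine ⟨!₂[c, s], !₂[-s, c], -2 * A * c * s + B * c ^ 2 - C * s ^ 2,
    -2 * A * c * s - B * s ^ 2 + C * c ^ 2, ⟨?_, ?_, ?_, ?_⟩, ?_, ?_, ?_⟩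
  · rw [← sq_eq_sq₀ (norm_nonneg _) zero_le_one, ← real_inner_self_eq_norm_sq, inner2]
    simp; linarith
  · rw [← sq_eq_sq₀ (norm_nonneg _) zero_le_one, ← real_inner_self_eq_norm_sq, inner2]
    simp; linarith
  · rw [inner2]; simp; ring
  · intro v
    rw [inner2, inner2]
    ext i
    fin_cases i
    · simp; linear_combination (-v 0) * hcs
    · simp; linear_combination (-v 1) * hcs
  · intro v
    rw [inner2, inner2, (hM v).1, (hM v).2, hD']
    simp
    linear_combination (c * v 0 + s * v 1) * h0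
      - ((A * c + C * s) * v 0 + (B * c - A * s) * v 1) * hcs
  · intro v
    rw [inner2, inner2, (hM v).1, (hM v).2, hD']
    simp
    linear_combination (s * v 0 - c * v 1) * h0
      - ((C * c - A * s) * v 0 - (B * s + A * c) * v 1) * hcs
  · rw [hdet, hD']
    linear_combination (-(A * (c ^ 2 - s ^ 2) + (B + C) * (c * s))) * h0
      + (A ^ 2 + B * C) * (c ^ 2 + s ^ 2 + 1) * hcs

theorem global_cov {J : E2 → ℝ} {V : E2 → E2} {L : ℝ} {D : Set E2} (hD : IsCompact D)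
    {f : E2 → ℝ} (hf : IntegrableOn f D)
    (hloc : ∀ p ∈ D, ∃ r > 0, ∀ S : Set E2, IsCompact S → S ⊆ D → S ⊆ closedBall p r →
      ∀ ε > 0, Cov J (ruled V L S) ((∫ x in S, f x) + ε)) :
    ∀ ε > 0, Cov J (ruled V L D) ((∫ x in D, f x) + ε) := by
  classical
  choose! r hr0 hr using hloc
  obtain ⟨t, htD, ht⟩ := hD.elim_nhds_subcover (fun p => ball p (r p))
    (fun p hp => ball_mem_nhds p (hr0 p hp))
  suffices h : ∀ t : Finset E2, (∀ p ∈ t, p ∈ D) → ∀ K : Set E2, IsCompact K → K ⊆ D →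
      K ⊆ ⋃ p ∈ t, ball p (r p) → ∀ ε > 0, Cov J (ruled V L K) ((∫ x in K, f x) + ε) from
    h t htD D hD Subset.rfl ht
  intro t
  induction t using Finset.induction_on with
  | empty =>
    intro _ K _ _ hK ε hε
    have : K = ∅ := by simpa using hK
    subst this
    refine (Cov.empty J).mono ?_ (by simpa using hε.le)
    rintro z ⟨p, hp, -⟩
    exact hp
  | insert p t _ ih =>
    intro htD K hK hKD hKt ε hε
    have hpD : p ∈ D := htD p (Finset.mem_insert_self p t)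
    have h1 := hr p hpD (K ∩ closedBall p (r p)) (hK.inter_right isClosed_closedBall)
      (inter_subset_left.trans hKD) inter_subset_right (ε / 2) (by positivity)
    have h2 := ih (fun q hq => htD q (Finset.mem_insert_of_mem hq)) (K \ ball p (r p))
      (hK.diff isOpen_ball) (sdiff_subset.trans hKD) (by
        rintro x ⟨hx, hx'⟩
        have := hKt hx
        simp only [Finset.mem_insert, mem_iUnion, exists_prop] at this ⊢
        obtain ⟨q, hq | hq, hxq⟩ := this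
        · subst hq; exact absurd hxq hx'
        · exact ⟨q, hq, hxq⟩) (ε / 2) (by positivity)
    have hunion : K ∩ closedBall p (r p) ∪ K \ ball p (r p) = K := by
      ext x
      constructor
      · rintro (hx | hx)
        · exact hx.1
        · exact hx.1
      · intro hx
        by_cases hb : x ∈ ball p (r p)
        · exact Or.inl ⟨hx, ball_subset_closedBall hb⟩
        · exact Or.inr ⟨hx, hb⟩
    have hint : ∫ x in K, f x =
        (∫ x in K ∩ closedBall p (r p), f x) + ∫ x in K \ ball p (r p), f x := by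
      conv_lhs => rw [← hunion]
      apply setIntegral_union₀
      · refine measure_mono_null ?_ (Measure.addHaar_sphere volume p (r p))
        rintro x ⟨hx, hx'⟩
        rw [← closedBall_sdiff_ball]
        exact ⟨hx.2, hx'.2⟩
      · exact (hK.diff isOpen_ball).measurableSet.nullMeasurableSet
      · exact hf.mono_set (inter_subset_left.trans hKD)
      · exact hf.mono_set (sdiff_subset.trans hKD)
    refine (h1.union h2).mono ?_ (by rw [hint]; linarith)
    rintro z ⟨q, hq, hz⟩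
    rw [← hunion] at hq
    rcases hq with hq | hq
    · exact Or.inl ⟨q, hq, hz⟩
    · exact Or.inr ⟨q, hq, hz⟩

theorem square_cover {J : E2 → ℝ} (hJc : Continuous J) (hJ0 : ∀ g, 0 ≤ J g) (hJ1 : ∀ g, J g ≤ 1)
    {D : Set E2} (hD : IsCompact D) {V : E2 → E2} {U : Set E2} (hU : IsOpen U) (hDU : D ⊆ U)
    (hV : ContDiffOn ℝ 1 V U) {L : ℝ} (hL : 0 < L)
    (htr : ∀ p ∈ D, LinearMap.trace ℝ _ (fderiv ℝ V p).toLinearMap = 0)
    (hdet : ∀ p ∈ D, -(L ^ 2)⁻¹ < LinearMap.det (fderiv ℝ V p).toLinearMap ∧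
      LinearMap.det (fderiv ℝ V p).toLinearMap ≤ 0) {ε : ℝ} (hε : 0 < ε) :
    Cov J (ruled V L D) ((∫ p in D, J (V p)) + ε) := by
  have hVc : ContinuousOn V D := hV.continuousOn.mono hDU
  have hfc : ContinuousOn (fun p => J (V p)) D := hJc.comp_continuousOn hVc
  have hfi : IntegrableOn (fun p => J (V p)) D := hfc.integrableOn_compact hD
  set v := (volume D).toReal with hv
  have hv0 : 0 ≤ v := ENNReal.toReal_nonneg
  set γ := min 1 (ε / (8 * (v + 1))) with hγ
  have hγ0 : 0 < γ := lt_min one_pos (by positivity)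
  have hγ1 : γ ≤ 1 := min_le_left _ _
  have hγε : 4 * γ * v ≤ ε / 2 := by
    have h1 : γ ≤ ε / (8 * (v + 1)) := min_le_right _ _
    rw [le_div_iff₀ (by positivity)] at h1
    nlinarith
  have hsplit : ∀ S : Set E2, IsCompact S → S ⊆ D →
      ∫ x in S, (J (V x) + 4 * γ) = (∫ x in S, J (V x)) + 4 * γ * (volume S).toReal := by
    intro S hS hSD
    rw [integral_add (hfi.mono_set hSD) (integrableOn_const hS.measure_lt_top.ne),
      setIntegral_const, smul_eq_mul, mul_comm _ (4 * γ)]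
    rfl
  have key := global_cov (J := J) (V := V) (L := L) hD (f := fun x => J (V x) + 4 * γ)
    (hfi.add (integrableOn_const hD.measure_lt_top.ne)) ?_ (ε / 2) (by positivity)
  · refine key.mono Subset.rfl ?_
    rw [hsplit D hD Subset.rfl]
    linarith
  intro p₀ hp₀
  obtain ⟨e₁, e₂, m, n, hfr, hm, hn, hmn⟩ := exists_frame2 (fderiv ℝ V p₀) (htr p₀ hp₀)
  obtain ⟨hd1, hd2⟩ := hdet p₀ hp₀
  rw [hmn] at hd1 hd2
  have hmn0 : 0 ≤ m * n := by linarith
  have hmn1 : L ^ 2 * (m * n) ≤ 1 := by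
    have h1 : m * n ≤ (L ^ 2)⁻¹ := by linarith
    calc L ^ 2 * (m * n) ≤ L ^ 2 * (L ^ 2)⁻¹ := by gcongr
      _ = 1 := mul_inv_cancel₀ (by positivity)
  set C₂ := L * |n| + 2 * L ^ 2 * |n| * (L * |m| + 2) + 2 * L * (L * |m| + 3) with hC₂
  obtain ⟨η, hη0, hη1, hLη, hK⟩ : ∃ η : ℝ, 0 < η ∧ η ≤ 1 ∧ L * η ≤ 1 / 2 ∧
      (1 + L * η) * (1 + η * C₂ + (1 + L * η) * η) ≤ 1 + γ := by
    have c1 : ContinuousAt (fun η : ℝ => (1 + L * η) * (1 + η * C₂ + (1 + L * η) * η)) 0 := by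
      fun_prop
    have c2 : ContinuousAt (fun η : ℝ => L * η) 0 := by fun_prop
    have e1 : ∀ᶠ η in nhds (0 : ℝ), (1 + L * η) * (1 + η * C₂ + (1 + L * η) * η) ≤ 1 + γ :=
      c1.eventually (ge_mem_nhds (by simpa using hγ0))
    have e2 : ∀ᶠ η in nhds (0 : ℝ), L * η ≤ 1 / 2 := c2.eventually (ge_mem_nhds (by simp))
    have e3 : ∀ᶠ η in nhds (0 : ℝ), η ≤ 1 := ge_mem_nhds one_pos
    obtain ⟨η, ⟨⟨h1, h2⟩, h3⟩, h4⟩ := ((((e1.and e2).and e3).filter_mono
      (nhdsWithin_le_nhds (s := Ioi 0))).and self_mem_nhdsWithin).exists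
    exact ⟨η, h4, h3, h2, h1⟩
  have hcd : ContDiffAt ℝ 1 V p₀ := hV.contDiffAt (hU.mem_nhds (hDU hp₀))
  obtain ⟨s, hs, happ⟩ := (hcd.hasStrictFDerivAt one_ne_zero).approximates_deriv_on_nhds
    (c := ⟨η, hη0.le⟩) (Or.inr hη0)
  have hcont : ContinuousAt (fun p => J (V p)) p₀ := hJc.continuousAt.comp hcd.continuousAt
  have hev : ∀ᶠ q in nhds p₀, |J (V q) - J (V p₀)| ≤ γ := by
    have := hcont.eventually (closedBall_mem_nhds (J (V p₀)) hγ0)
    filter_upwards [this] with q hq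
    rwa [Real.dist_eq] at hq
  obtain ⟨r, hr0, hr⟩ := Metric.mem_nhds_iff.1 (Filter.inter_mem hs hev)
  have h2r : 2 * (r / 2) = r := by ring
  refine ⟨r / 2, by positivity, fun S hS hSD hSr ε' hε' => ?_⟩
  have hcs : ∀ (x e : E2), ‖e‖ = 1 → |inner ℝ x e| ≤ ‖x‖ := fun x e he => by
    simpa [he] using abs_real_inner_le_norm x e
  have hloc := local_cov (J := J) (V := V) hL hfr (p₀ := p₀) (r := r / 2) (J₀ := J (V p₀) + γ)
    (by positivity) hmn0 hmn1 hη0 hη1 hLη
    (fun p hp q hq => by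
      rw [h2r] at hp hq
      have h1 : ‖V p - V q - fderiv ℝ V p₀ (p - q)‖ ≤ η * ‖p - q‖ := happ p (hr hp).1 q (hr hq).1
      rw [← hm, ← hn, ← inner_sub_left, ← inner_sub_left]
      exact ⟨(hcs _ _ hfr.n1).trans h1, (hcs _ _ hfr.n2).trans h1⟩)
    (by have := hJ0 (V p₀); positivity)
    (fun q hq => by
      rw [h2r] at hq
      have := abs_le.1 (show |J (V q) - J (V p₀)| ≤ γ from (hr hq).2)
      linarith [this.2])
    hS hSr (ε := ε' / 4) (by positivity)
  refine hloc.mono Subset.rfl ?_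
  rw [hsplit S hS hSD]
  have hw0 : 0 ≤ (volume S).toReal := ENNReal.toReal_nonneg
  have hlow : (J (V p₀) - γ) * (volume S).toReal ≤ ∫ x in S, J (V x) := by
    apply setIntegral_ge_of_const_le_real hS.measurableSet hS.measure_lt_top.ne _ (hfi.mono_set hSD)
    intro x hx
    have hx' : x ∈ ball p₀ r := closedBall_subset_ball (by linarith) (hSr hx)
    have := abs_le.1 (show |J (V x) - J (V p₀)| ≤ γ from (hr hx').2)
    linarith [this.1]
  have hf0 := hJ0 (V p₀)
  have hf1 := hJ1 (V p₀)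
  have h3 : (J (V p₀) + γ) * ((1 + L * η) * (1 + η * C₂ + (1 + L * η) * η)) ≤
      J (V p₀) + 3 * γ := by
    calc _ ≤ (J (V p₀) + γ) * (1 + γ) := by gcongr
      _ ≤ _ := by nlinarith
  calc _ ≤ (J (V p₀) + 3 * γ) * ((volume S).toReal + ε' / 4) := by gcongr
    _ ≤ _ := by nlinarith

end Crest.Agent.R211
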