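import Crest.Agent.R211.Tet

/-!
Covers of ruled sets by sheared cylinders over squares: bookkeeping and the planar estimate.
-/

open MeasureTheory Set
open scoped ENNReal

noncomputable section

namespace Crest.Agent.R211

/-- the sheared cylinder over the parallelogram `c + [0,1] a + [0,1] b` with velocity `g`. -/
def shear (c a b g : E2) : Set (ℝ × E2) :=
  {z | ∃ x ∈ Icc (0 : ℝ) 1, ∃ y ∈ Icc (0 : ℝ) 1, z.2 = c + x • a + y • b + z.1 • g}

/-- the ruled set over `D`. -/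
def ruled (V : E2 → E2) (L : ℝ) (D : Set E2) : Set (ℝ × E2) :=
  {z | ∃ p ∈ D, |z.1| ≤ L ∧ z.2 = p + z.1 • V p}

/-- `E` has a finite cover by sheared square cylinders of weighted cost at most `C`. -/
def Cov (J : E2 → ℝ) (E : Set (ℝ × E2)) (C : ℝ) : Prop :=
  ∃ (k : ℕ) (c a b g : Fin k → E2),
    (∀ i, a i ≠ 0 ∧ ‖b i‖ = ‖a i‖ ∧ inner ℝ (a i) (b i) = 0) ∧
    E ⊆ ⋃ i, shear (c i) (a i) (b i) (g i) ∧ ∑ i, ‖a i‖ ^ 2 * J (g i) ≤ C

theorem Cov.of_fintype {J : E2 → ℝ} {E : Set (ℝ × E2)} {C : ℝ} {ι : Type} [Fintype ι]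
    (c a b g : ι → E2) (h1 : ∀ i, a i ≠ 0 ∧ ‖b i‖ = ‖a i‖ ∧ inner ℝ (a i) (b i) = 0)
    (h2 : E ⊆ ⋃ i, shear (c i) (a i) (b i) (g i)) (h3 : ∑ i, ‖a i‖ ^ 2 * J (g i) ≤ C) :
    Cov J E C := by
  let e := (Fintype.equivFin ι).symm
  refine ⟨_, c ∘ e, a ∘ e, b ∘ e, g ∘ e, fun i => h1 _, ?_, ?_⟩
  · intro x hx
    obtain ⟨i, hi⟩ := mem_iUnion.1 (h2 hx)
    exact mem_iUnion.2 ⟨e.symm i, by simpa using hi⟩
  · have := e.sum_comp (fun i => ‖a i‖ ^ 2 * J (g i))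
    simp only [Function.comp]
    rw [this]
    exact h3

theorem Cov.mono {J : E2 → ℝ} {E E' : Set (ℝ × E2)} {C C' : ℝ} (h : Cov J E C) (hE : E' ⊆ E)
    (hC : C ≤ C') : Cov J E' C' := by
  obtain ⟨k, c, a, b, g, h1, h2, h3⟩ := h
  exact ⟨k, c, a, b, g, h1, hE.trans h2, h3.trans hC⟩

theorem Cov.empty (J : E2 → ℝ) : Cov J ∅ 0 :=
  ⟨0, Fin.elim0, Fin.elim0, Fin.elim0, Fin.elim0, fun i => i.elim0, empty_subset _, by simp⟩

theorem Cov.union {J : E2 → ℝ} {E E' : Set (ℝ × E2)} {C C' : ℝ} (h : Cov J E C)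
    (h' : Cov J E' C') : Cov J (E ∪ E') (C + C') := by
  obtain ⟨k, c, a, b, g, h1, h2, h3⟩ := h
  obtain ⟨k', c', a', b', g', h1', h2', h3'⟩ := h'
  refine Cov.of_fintype (ι := Fin k ⊕ Fin k') (Sum.elim c c') (Sum.elim a a') (Sum.elim b b')
    (Sum.elim g g') ?_ ?_ ?_
  · rintro (i | i)
    · exact h1 i
    · exact h1' i
  · rintro x (hx | hx)
    · obtain ⟨i, hi⟩ := mem_iUnion.1 (h2 hx)
      exact mem_iUnion.2 ⟨Sum.inl i, hi⟩
    · obtain ⟨i, hi⟩ := mem_iUnion.1 (h2' hx)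
      exact mem_iUnion.2 ⟨Sum.inr i, hi⟩
  · rw [Fintype.sum_sum_type]
    exact add_le_add h3 h3'

theorem exists_int_near {δ : ℝ} (hδ : 0 < δ) (y : ℝ) : ∃ j : ℤ, |y - j * δ| ≤ δ / 2 := by
  refine ⟨round (y / δ), ?_⟩
  have h := abs_sub_round (y / δ)
  have e : y - round (y / δ) * δ = (y / δ - round (y / δ)) * δ := by field_simp
  rw [e, abs_mul, abs_of_pos hδ]
  nlinarith

theorem core_real {F G : ℝ → ℝ → ℝ} {Ω : Set (ℝ × ℝ)} {m n η L δ : ℝ}
    (hF : ∀ x y x' y', (x, y) ∈ Ω → (x', y') ∈ Ω →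
      |F x y - F x' y' - m * (y - y')| ≤ η * (|x - x'| + |y - y'|))
    (hG : ∀ x y x' y', (x, y) ∈ Ω → (x', y') ∈ Ω →
      |G x y - G x' y' - n * (x - x')| ≤ η * (|x - x'| + |y - y'|))
    (hL : 0 < L) (hmn0 : 0 ≤ m * n) (hmn : L ^ 2 * (m * n) ≤ 1) (hη : 0 < η) (hη1 : η ≤ 1)
    (hLη : L * η ≤ 1 / 2) (hδ : 0 < δ) {x y s : ℝ} (hs : |s| ≤ L)
    (hΩ : ∀ x' y', |x' - x| ≤ (L * |m| + 2) * δ → |y' - y| ≤ δ → (x', y') ∈ Ω) :
    ∃ j k : ℤ, |k * (η * δ) - x| ≤ (L * |m| + 2) * δ ∧ |j * δ - y| ≤ δ ∧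
      |x + s * F x y - k * (η * δ) - s * F (k * (η * δ)) (j * δ)| ≤ (1 + L * η) * (η * δ) / 2 ∧
      |y + s * G x y - j * δ - s * G (k * (η * δ)) (j * δ)| ≤
        δ * (1 + η * (L * |n| + 2 * L ^ 2 * |n| * (L * |m| + 2) + 2 * L * (L * |m| + 3))) / 2 := by
  obtain ⟨j, hj⟩ := exists_int_near hδ y
  set y₀ := (j : ℝ) * δ with hy₀
  set C := L * |m| + 1 with hC
  have hLm : 0 ≤ L * |m| := by positivity
  have hC0 : 0 < C := by positivity
  have hy₀' : |y₀ - y| ≤ δ := by rw [abs_sub_comm]; linarith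
  have hΩ0 : (x, y) ∈ Ω := hΩ x y (by simp; positivity) (by simp; positivity)
  have hΩ1 : ∀ ξ, |ξ - x| ≤ (L * |m| + 2) * δ → (ξ, y₀) ∈ Ω := fun ξ h => hΩ ξ y₀ h hy₀'
  have hlip : ∀ ξ ξ', |ξ - x| ≤ (L * |m| + 2) * δ → |ξ' - x| ≤ (L * |m| + 2) * δ →
      |F ξ y₀ - F ξ' y₀| ≤ η * |ξ - ξ'| := by
    intro ξ ξ' h h'
    simpa using hF ξ y₀ ξ' y₀ (hΩ1 ξ h) (hΩ1 ξ' h')
  have hI : ∀ ξ ∈ Icc (x - C * δ) (x + C * δ), |ξ - x| ≤ (L * |m| + 2) * δ := by
    intro ξ hξ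
    rw [abs_le]
    constructor <;> nlinarith [hξ.1, hξ.2]
  have hcont : ContinuousOn (fun ξ => F ξ y₀) (Icc (x - C * δ) (x + C * δ)) := by
    apply LipschitzOnWith.continuousOn (K := ⟨η, hη.le⟩)
    apply LipschitzOnWith.of_dist_le_mul
    intro ξ hξ ξ' hξ'
    exact hlip ξ ξ' (hI ξ hξ) (hI ξ' hξ')
  have hcont' : ContinuousOn (fun ξ => ξ + s * F ξ y₀) (Icc (x - C * δ) (x + C * δ)) :=
    continuousOn_id.add (continuousOn_const.mul hcont)
  have hCδ : 0 < C * δ := by positivity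
  have smul_le : ∀ u B : ℝ, |u| ≤ B → |s * u| ≤ L * B := fun u B h => by
    rw [abs_mul]; exact mul_le_mul hs h (abs_nonneg _) hL.le
  have hx0 : |F x y - F x y₀| ≤ (|m| + η) * (δ / 2) := by
    have h1 := hF x y x y₀ hΩ0 (hΩ1 x (by simp; positivity))
    simp only [sub_self, abs_zero, zero_add] at h1
    calc |F x y - F x y₀| = |(F x y - F x y₀ - m * (y - y₀)) + m * (y - y₀)| := by congr 1; ring
      _ ≤ |F x y - F x y₀ - m * (y - y₀)| + |m * (y - y₀)| := abs_add_le _ _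
      _ ≤ η * |y - y₀| + |m| * |y - y₀| := by rw [abs_mul]; linarith
      _ = (|m| + η) * |y - y₀| := by ring
      _ ≤ _ := by gcongr
  have hx1 := abs_le.1 (smul_le _ _ hx0)
  have hxx : |x - x| ≤ (L * |m| + 2) * δ := by simp; positivity
  have hmem : x + s * F x y ∈ Icc ((fun ξ => ξ + s * F ξ y₀) (x - C * δ))
      ((fun ξ => ξ + s * F ξ y₀) (x + C * δ)) := by
    have ha := abs_le.1 (smul_le _ _ (hlip (x - C * δ) x
      (hI _ ⟨le_rfl, by linarith⟩) hxx))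
    have hb := abs_le.1 (smul_le _ _ (hlip (x + C * δ) x
      (hI _ ⟨by linarith, le_rfl⟩) hxx))
    have e1 : |x - C * δ - x| = C * δ := by
      rw [show x - C * δ - x = -(C * δ) by ring, abs_neg, abs_of_pos hCδ]
    have e2 : |x + C * δ - x| = C * δ := by
      rw [show x + C * δ - x = C * δ by ring, abs_of_pos hCδ]
    rw [e1] at ha
    rw [e2] at hb
    have h5 : L * (η * (C * δ)) ≤ C * δ / 2 := by nlinarith
    have h6 : L * ((|m| + η) * (δ / 2)) ≤ C * δ / 2 := by rw [hC]; nlinarith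
    constructor
    · simp only
      nlinarith [ha.2, hx1.1]
    · simp only
      nlinarith [hb.1, hx1.2]
  obtain ⟨ξ, hξ, hξe⟩ := intermediate_value_Icc (by linarith) hcont' hmem
  simp only at hξe
  have hδ' : 0 < η * δ := by positivity
  obtain ⟨k, hk⟩ := exists_int_near hδ' ξ
  set x₀ := (k : ℝ) * (η * δ) with hx₀
  have hξx : |ξ - x| ≤ C * δ := by
    rw [abs_le]
    constructor <;> linarith [hξ.1, hξ.2]
  have hηδ : η * δ ≤ δ := by nlinarith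
  have hx₀x : |x₀ - x| ≤ C * δ + δ / 2 := by
    have h1 := abs_le.1 hk
    have h2 := abs_le.1 hξx
    rw [abs_le]
    constructor <;> linarith [h1.1, h1.2, h2.1, h2.2]
  have hx₀x' : |x₀ - x| ≤ (L * |m| + 2) * δ := hx₀x.trans (by rw [hC]; linarith)
  refine ⟨j, k, hx₀x', hy₀', ?_, ?_⟩
  · have h1 := smul_le _ _ (hlip ξ x₀ (hI ξ hξ) hx₀x')
    calc |x + s * F x y - x₀ - s * F x₀ y₀| = |(ξ - x₀) + s * (F ξ y₀ - F x₀ y₀)| := by
          rw [← hξe]; congr 1; ring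
      _ ≤ |ξ - x₀| + |s * (F ξ y₀ - F x₀ y₀)| := abs_add_le _ _
      _ ≤ |ξ - x₀| + L * (η * |ξ - x₀|) := by linarith
      _ = (1 + L * η) * |ξ - x₀| := by ring
      _ ≤ (1 + L * η) * (η * δ / 2) := by gcongr
      _ = _ := by ring
  · have h1 := hG x y x₀ y₀ hΩ0 (hΩ1 x₀ hx₀x')
    have h2 := hF ξ y₀ x y (hΩ1 ξ (hI ξ hξ)) hΩ0
    set E₁ := G x y - G x₀ y₀ - n * (x - x₀) with hE₁
    set E₂ := F ξ y₀ - F x y - m * (y₀ - y) with hE₂
    have b1 : |E₁| ≤ η * ((C + 1) * δ) := by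
      refine h1.trans (mul_le_mul_of_nonneg_left ?_ hη.le)
      rw [abs_sub_comm x x₀]
      linarith
    have b2 : |E₂| ≤ η * ((C + 1) * δ) := by
      refine h2.trans (mul_le_mul_of_nonneg_left ?_ hη.le)
      linarith
    have e : y + s * G x y - y₀ - s * G x₀ y₀ =
        (1 - s ^ 2 * (m * n)) * (y - y₀) + s * (n * (ξ - x₀)) + s * (s * (n * E₂)) + s * E₁ := by
      rw [hE₁, hE₂]
      linear_combination (-s * n) * hξe
    have hs2 : s ^ 2 ≤ L ^ 2 := by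
      rw [← sq_abs]; exact pow_le_pow_left₀ (abs_nonneg _) hs 2
    have c0 : |1 - s ^ 2 * (m * n)| ≤ 1 := by
      rw [abs_le]
      have : 0 ≤ s ^ 2 * (m * n) := by positivity
      have : s ^ 2 * (m * n) ≤ L ^ 2 * (m * n) := by gcongr
      constructor <;> linarith
    have c1 : |(1 - s ^ 2 * (m * n)) * (y - y₀)| ≤ 1 * (δ / 2) := by
      rw [abs_mul]; gcongr
    have c2 : |s * (n * (ξ - x₀))| ≤ L * (|n| * (η * δ / 2)) := by
      apply smul_le; rw [abs_mul]; gcongr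
    have c3 : |s * (s * (n * E₂))| ≤ L * (L * (|n| * (η * ((C + 1) * δ)))) := by
      apply smul_le; apply smul_le; rw [abs_mul]; gcongr
    have c4 : |s * E₁| ≤ L * (η * ((C + 1) * δ)) := smul_le _ _ b1
    rw [e]
    have t1 := abs_add_le ((1 - s ^ 2 * (m * n)) * (y - y₀) + s * (n * (ξ - x₀)) +
      s * (s * (n * E₂))) (s * E₁)
    have t2 := abs_add_le ((1 - s ^ 2 * (m * n)) * (y - y₀) + s * (n * (ξ - x₀)))
      (s * (s * (n * E₂)))
    have t3 := abs_add_le ((1 - s ^ 2 * (m * n)) * (y - y₀)) (s * (n * (ξ - x₀)))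
    have c5 : 0 ≤ L * η * δ := by positivity
    have e5 : δ * (1 + η * (L * |n| + 2 * L ^ 2 * |n| * (L * |m| + 2) + 2 * L * (L * |m| + 3))) / 2
        = 1 * (δ / 2) + L * (|n| * (η * δ / 2)) + L * (L * (|n| * (η * ((C + 1) * δ))))
          + L * (η * ((C + 1) * δ)) + L * η * δ := by rw [hC]; ring
    rw [e5]
    linarith

/-- the half-open grid rectangle. -/
def rect (a b : ℝ) (z : ℤ × ℤ) : Set (ℝ × ℝ) :=
  Ico (z.1 * a) ((z.1 + 1) * a) ×ˢ Ico (z.2 * b) ((z.2 + 1) * b)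

theorem int_eq_of_mem {a x : ℝ} (ha : 0 < a) {i j : ℤ} (hi : x ∈ Ico (i * a) ((i + 1) * a))
    (hj : x ∈ Ico (j * a) ((j + 1) * a)) : i = j := by
  have h1 : (i : ℝ) < j + 1 := lt_of_mul_lt_mul_right (hi.1.trans_lt hj.2) ha.le
  have h2 : (j : ℝ) < i + 1 := lt_of_mul_lt_mul_right (hj.1.trans_lt hi.2) ha.le
  have h3 : i < j + 1 := by exact_mod_cast h1
  have h4 : j < i + 1 := by exact_mod_cast h2
  omega

theorem count_rect {a b : ℝ} (ha : 0 < a) (hb : 0 < b) (T : Finset (ℤ × ℤ)) {W : Set (ℝ × ℝ)}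
    (hW : volume W ≠ ⊤) (hT : ∀ z ∈ T, rect a b z ⊆ W) :
    T.card * (a * b) ≤ (volume W).toReal := by
  have h1 : volume (⋃ z ∈ T, rect a b z) = ∑ z ∈ T, volume (rect a b z) := by
    apply measure_biUnion_finset
    · intro z _ z' _ hne
      rw [Function.onFun, Set.disjoint_left]
      intro x hx hx'
      exact hne (Prod.ext (int_eq_of_mem ha hx.1 hx'.1) (int_eq_of_mem hb hx.2 hx'.2))
    · intro z _
      exact measurableSet_Ico.prod measurableSet_Ico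
  have h2 : ∀ z, volume (rect a b z) = ENNReal.ofReal (a * b) := by
    intro z
    rw [rect, Measure.volume_eq_prod, Measure.prod_prod, Real.volume_Ico, Real.volume_Ico,
      ← ENNReal.ofReal_mul (by linarith)]
    congr 1
    ring
  have h3 : volume (⋃ z ∈ T, rect a b z) ≤ volume W :=
    measure_mono (iUnion₂_subset hT)
  rw [h1] at h3
  simp only [h2, Finset.sum_const, nsmul_eq_mul] at h3
  have h4 := ENNReal.toReal_mono hW h3
  rwa [ENNReal.toReal_mul, ENNReal.toReal_natCast, ENNReal.toReal_ofReal (by positivity)] at h4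

theorem exists_finset_rect {a b : ℝ} (ha : 0 < a) (hb : 0 < b) (I : Set (ℤ × ℤ)) {W : Set (ℝ × ℝ)}
    (hW : volume W ≠ ⊤) (hI : ∀ z ∈ I, rect a b z ⊆ W) :
    ∃ T : Finset (ℤ × ℤ), (∀ z, z ∈ T ↔ z ∈ I) ∧ T.card * (a * b) ≤ (volume W).toReal := by
  have hfin : I.Finite := by
    by_contra hinf
    obtain ⟨N, hN⟩ := exists_nat_gt ((volume W).toReal / (a * b))
    obtain ⟨T, hT, hcard⟩ := Set.Infinite.exists_subset_card_eq hinf N
    have := count_rect ha hb T hW (fun z hz => hI z (hT hz))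
    rw [hcard] at this
    rw [div_lt_iff₀ (by positivity)] at hN
    linarith
  exact ⟨hfin.toFinset, fun z => by simp, count_rect ha hb _ hW (fun z hz => hI z (by simpa using hz))⟩

end Crest.Agent.R211
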