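import Crest.Agent.R211.Tet

/-!
The standard regular tetrahedron with vertices `(±1, 0, 0)`, `(0, ±1, √2)`.
-/

open MeasureTheory Set
open scoped ENNReal

noncomputable section

namespace Crest.Agent.R211

/-- the vertex set of the standard tetrahedron. -/
abbrev stdT : Set E3 :=
  {!₂[1, 0, 0], !₂[-1, 0, 0], !₂[0, 1, Real.sqrt 2], !₂[0, -1, Real.sqrt 2]}

theorem std_frame : Frame 1 (!₂[1, 0, 0] : E3) !₂[0, 1, 0] !₂[0, 0, Real.sqrt 2] := by
  constructor <;> simp [normSq3, inner3]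

theorem std_A : (!₂[1, 0, 0] : E3) = 0 + !₂[1, 0, 0] := by simp

theorem std_B : (!₂[-1, 0, 0] : E3) = 0 - !₂[1, 0, 0] := by
  ext i; fin_cases i <;> simp

theorem std_C : (!₂[0, 1, Real.sqrt 2] : E3) = 0 + !₂[0, 1, 0] + !₂[0, 0, Real.sqrt 2] := by
  ext i; fin_cases i <;> simp

theorem std_D : (!₂[0, -1, Real.sqrt 2] : E3) = 0 - !₂[0, 1, 0] + !₂[0, 0, Real.sqrt 2] := by
  ext i; fin_cases i <;> simp

theorem std_hT : ∀ p ∈ stdT, p = 0 + (!₂[1, 0, 0] : E3) ∨ p = 0 - (!₂[1, 0, 0] : E3) ∨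
    p = 0 + (!₂[0, 1, 0] : E3) + !₂[0, 0, Real.sqrt 2] ∨
    p = 0 - (!₂[0, 1, 0] : E3) + !₂[0, 0, Real.sqrt 2] := by
  intro p hp
  rw [← std_A, ← std_B, ← std_C, ← std_D]
  simpa [stdT] using hp

theorem std_bounded : Bornology.IsBounded (convexHull ℝ stdT) := by
  rw [isBounded_convexHull]
  exact (Set.toFinite _).isBounded

theorem std_proj_lower {v : E3} (hv : ‖v‖ = 1) :
    Real.sqrt 2 ≤ (μHE[2] (proj v '' convexHull ℝ stdT)).toReal := by
  have := frame_proj_lower (o := 0) one_pos std_frame (convex_convexHull ℝ stdT) std_bounded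
    (std_A ▸ subset_convexHull ℝ stdT (by simp [stdT]))
    (std_B ▸ subset_convexHull ℝ stdT (by simp [stdT]))
    (std_C ▸ subset_convexHull ℝ stdT (by simp [stdT]))
    (std_D ▸ subset_convexHull ℝ stdT (by simp [stdT])) hv
  simpa using this

theorem proj_eq_fun {v : E3} (hv : ‖v‖ = 1) : (fun y : E3 => y - inner ℝ y v • v) = proj v := by
  funext y
  rw [proj_unit hv]

theorem norm_e0 : ‖(!₂[1, 0, 0] : E3)‖ = 1 := by
  rw [← sq_eq_sq₀ (norm_nonneg _) zero_le_one, normSq3]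
  simp

theorem std_proj_upper :
    μHE[2] (proj (!₂[1, 0, 0] : E3) '' convexHull ℝ stdT) ≤ ENNReal.ofReal (Real.sqrt 2) := by
  have hsub : proj (!₂[1, 0, 0] : E3) '' convexHull ℝ stdT ⊆
      proj (!₂[1, 0, 0] : E3) '' (par 0 !₂[0, 1, Real.sqrt 2] !₂[0, -1, Real.sqrt 2] '' tri) := by
    rintro _ ⟨z, hz, rfl⟩
    obtain ⟨x, y, α, hy, hx, rfl⟩ := mem_tet_coords std_hT hz
    have hy' := abs_le.1 hy
    refine ⟨_, ⟨((α + y) / 2, (α - y) / 2), ⟨by linarith [hy'.1], by linarith [hy'.2],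
      by linarith [abs_nonneg x]⟩, rfl⟩, ?_⟩
    rw [proj_unit norm_e0, proj_unit norm_e0, inner3, inner3]
    ext i
    fin_cases i <;> simp [par] <;> ring
  refine (measure_mono hsub).trans ?_
  have h0 : (!₂[1, 0, 0] : E3) ≠ 0 := by
    rw [← norm_ne_zero_iff, norm_e0]; exact one_ne_zero
  rw [area_proj_par h0, volume_tri, ← ENNReal.ofReal_mul (by positivity), norm_e0]
  apply ENNReal.ofReal_le_ofReal
  have : det3 (!₂[0, 1, Real.sqrt 2] : E3) !₂[0, -1, Real.sqrt 2] !₂[1, 0, 0] = 2 * Real.sqrt 2 := by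
    simp [det3]; ring
  rw [this, abs_of_nonneg (by positivity)]
  linarith

/-- a triangle of prescribed area in the plane orthogonal to the first axis. -/
theorem exists_pad {A : ℝ} (hA : 0 ≤ A) : ∃ q r : E3, inner ℝ q (!₂[1, 0, 0] : E3) = 0 ∧
    inner ℝ r (!₂[1, 0, 0] : E3) = 0 ∧ triArea 0 q r = A := by
  refine ⟨!₂[0, 2 * A, 0], !₂[0, 0, 1], by simp [inner3], by simp [inner3], ?_⟩
  rw [triArea_eq, sub_zero, sub_zero, gram, normSq3, normSq3, inner3]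
  simp
  rw [Real.sqrt_sq (by linarith)]
  ring

/-- reindexing a cover by `Fin N`, with any larger total area. -/
theorem pad_cover {ι : Type} [Fintype ι] {K : Set E3} (u p q r : ι → E3) (hu : ∀ i, ‖u i‖ = 1)
    (ho : ∀ i, inner ℝ (p i) (u i) = 0 ∧ inner ℝ (q i) (u i) = 0 ∧ inner ℝ (r i) (u i) = 0)
    (hK : K ⊆ ⋃ i, cyl (u i) (p i) (q i) (r i)) {N : ℕ} (hN : Fintype.card ι < N) {A : ℝ}
    (hA : ∑ i, triArea (p i) (q i) (r i) ≤ A) :
    ∃ u' p' q' r' : Fin N → E3, (∀ i, ‖u' i‖ = 1) ∧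
      (∀ i, inner ℝ (p' i) (u' i) = 0 ∧ inner ℝ (q' i) (u' i) = 0 ∧ inner ℝ (r' i) (u' i) = 0) ∧
      K ⊆ ⋃ i, cyl (u' i) (p' i) (q' i) (r' i) ∧ ∑ i, triArea (p' i) (q' i) (r' i) = A := by
  obtain ⟨k, hk⟩ : ∃ k, N = Fintype.card ι + (k + 1) := ⟨N - Fintype.card ι - 1, by omega⟩
  have hk0 : (0 : ℝ) < (k + 1 : ℕ) := by positivity
  obtain ⟨q₀, r₀, hq₀, hr₀, hqr⟩ := exists_pad
    (A := (A - ∑ i, triArea (p i) (q i) (r i)) / (k + 1 : ℕ)) (div_nonneg (by linarith) hk0.le)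
  let e : Fin N ≃ ι ⊕ Fin (k + 1) := Fintype.equivOfCardEq (by simp [hk])
  refine ⟨Sum.elim u (fun _ => !₂[1, 0, 0]) ∘ e, Sum.elim p (fun _ => 0) ∘ e,
    Sum.elim q (fun _ => q₀) ∘ e, Sum.elim r (fun _ => r₀) ∘ e, ?_, ?_, ?_, ?_⟩
  · intro i
    simp only [Function.comp]
    rcases e i with j | j
    · exact hu j
    · exact norm_e0
  · intro i
    simp only [Function.comp]
    rcases e i with j | j
    · exact ho j
    · exact ⟨inner_zero_left _, hq₀, hr₀⟩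
  · intro x hx
    obtain ⟨i, hi⟩ := mem_iUnion.1 (hK hx)
    refine mem_iUnion.2 ⟨e.symm (Sum.inl i), ?_⟩
    simpa using hi
  · have := e.sum_comp (fun j => triArea (Sum.elim p (fun _ => 0) j) (Sum.elim q (fun _ => q₀) j)
      (Sum.elim r (fun _ => r₀) j))
    simp only [Function.comp]
    rw [this, Fintype.sum_sum_type]
    simp only [Sum.elim_inl, Sum.elim_inr, hqr, Finset.sum_const, Finset.card_univ,
      Fintype.card_fin, nsmul_eq_mul]
    field_simp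
    ring

theorem std_cover {N : ℕ} (hN : 2000000 < N) {A : ℝ}
    (hA : Real.sqrt 2 * (1 / 2 - 1 / 10 ^ 9) ≤ A) :
    ∃ u p q r : Fin N → E3, (∀ i, ‖u i‖ = 1) ∧
      (∀ i, inner ℝ (p i) (u i) = 0 ∧ inner ℝ (q i) (u i) = 0 ∧ inner ℝ (r i) (u i) = 0) ∧
      convexHull ℝ stdT ⊆ ⋃ i, cyl (u i) (p i) (q i) (r i) ∧
      ∑ i, triArea (p i) (q i) (r i) = A := by
  obtain ⟨n, u, p, q, r, hn, hu, ho, hc, ha⟩ := frame_cover one_pos std_frame std_hT
  refine pad_cover u p q r hu ho hc ?_ (ha.trans (by simpa using hA))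
  simp only [Fintype.card_sum, Fintype.card_fin]
  omega

end Crest.Agent.R211
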