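import Crest.Agent.R211.Tet

/-!
Radial sweeps: estimates for one piece of a tagged partition.
-/

open MeasureTheory Set
open scoped ENNReal

noncomputable section

namespace Crest.Agent.R211

theorem gram_pos {a b : E3} (hab : LinearIndependent ℝ ![a, b]) : 0 < gram a b := by
  refine lt_of_le_of_ne (gram_nonneg _ _) fun h => ?_
  rw [← normDet_lin2] at h
  apply LinearMap.normDet_eq_zero_iff_ker_ne_bot.1 h.symm
  rw [LinearMap.ker_eq_bot']
  intro z hz
  obtain ⟨h0, h1⟩ := LinearIndependent.pair_iff.1 hab (z 0) (z 1) hz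
  ext i
  fin_cases i
  · exact h0
  · exact h1

theorem det3_tilt {e a b w : E3} (he : ‖e‖ = 1) (ha : inner ℝ a e = 0) (hb : inner ℝ b e = 0)
    (hw : inner ℝ w e = 0) : |det3 a b (e + w)| = gram a b := by
  have h := gram_mul_norm ha hb
  rw [he, mul_one] at h
  rw [h]
  congr 1
  have he2 : e 0 ^ 2 + e 1 ^ 2 + e 2 ^ 2 = 1 := by rw [← normSq3, he]; norm_num
  rw [inner3] at ha hb hw
  have h0 : det3 a b w = 0 := by
    linear_combination (norm := (simp only [det3]; ring))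
      -(det3 a b w) * he2 + det3 b w e * ha + det3 w a e * hb + det3 a b e * hw
  have : det3 a b (e + w) = det3 a b e + det3 a b w := by
    simp only [det3, PiLp.add_apply]; ring
  rw [this, h0, add_zero]

theorem norm_tilt {e w : E3} (he : ‖e‖ = 1) (hw : inner ℝ w e = 0) :
    ‖e + w‖ = Real.sqrt (1 + ‖w‖ ^ 2) := by
  rw [← Real.sqrt_sq (norm_nonneg (e + w)), norm_add_sq_real, he, real_inner_comm, hw]
  congr 1
  ring

theorem fin_telescope {N : ℕ} (g : Fin (N + 1) → ℝ) :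
    ∑ i : Fin N, (g i.succ - g i.castSucc) = g (Fin.last N) - g 0 := by
  have h1 := Fin.sum_univ_succ g
  have h2 := Fin.sum_univ_castSucc g
  rw [Finset.sum_sub_distrib]
  linarith

theorem exists_piece {N : ℕ} {t : Fin (N + 1) → ℝ} (h0 : t 0 < t (Fin.last N)) {τ : ℝ}
    (h1 : t 0 ≤ τ) (h2 : τ ≤ t (Fin.last N)) :
    ∃ i : Fin N, t i.castSucc ≤ τ ∧ τ ≤ t i.succ := by
  by_contra hcon
  push Not at hcon
  have key : ∀ j : Fin (N + 1), t j ≤ τ ∧ (j ≠ 0 → t j < τ) := by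
    intro j
    induction j using Fin.induction with
    | zero => exact ⟨h1, fun h => absurd rfl h⟩
    | succ i ih => exact ⟨(hcon i ih.1).le, fun _ => hcon i ih.1⟩
  by_cases hN : Fin.last N = 0
  · rw [hN] at h0
    exact lt_irrefl _ h0
  · linarith [(key _).2 hN]

theorem displacement {a b : E3} {α β : ℝ} {w : ℝ → E3} {lam : ℝ → ℝ}
    (hlam : ContinuousOn lam (Icc α β))
    (hw' : ∀ t ∈ Icc α β, HasDerivWithinAt w (lam t • (a + t • b)) (Icc α β) t) {M : ℝ}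
    (hM : ∀ t ∈ Icc α β, |lam t| ≤ M) {t₁ t₂ c τ : ℝ} (h1 : α ≤ t₁) (h2 : t₂ ≤ β)
    (hc : c ∈ Icc t₁ t₂) (hτ : τ ∈ Icc t₁ t₂) :
    ∃ A B : ℝ, |A| ≤ M * (t₂ - t₁) ∧ |B| ≤ M * (t₂ - t₁) ^ 2 / 2 ∧
      w τ - w c = A • (a + ((t₁ + t₂) / 2) • b) + B • b := by
  set m := (t₁ + t₂) / 2 with hm
  have hsub : uIcc c τ ⊆ Icc t₁ t₂ := uIcc_subset_Icc hc hτ
  have hsub' : uIcc c τ ⊆ Icc α β := hsub.trans (Icc_subset_Icc h1 h2)
  have hl : ContinuousOn lam (uIcc c τ) := hlam.mono hsub'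
  have hM0 : 0 ≤ M := (abs_nonneg _).trans (hM c (hsub' left_mem_uIcc))
  have hτc : |τ - c| ≤ t₂ - t₁ := by
    rw [abs_le]
    constructor <;> linarith [hc.1, hc.2, hτ.1, hτ.2]
  have hftc := intervalIntegral.integral_eq_sub_of_hasDeriv_right (f := w)
    (f' := fun t => lam t • (a + t • b)) (a := c) (b := τ)
    (fun x hx => ((hw' x (hsub' hx)).continuousWithinAt).mono hsub')
    (fun x hx => by
      have hx' : x ∈ Ioo α β := by
        constructor
        · exact lt_of_le_of_lt (le_min (h1.trans hc.1) (h1.trans hτ.1)) hx.1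
        · exact lt_of_lt_of_le hx.2 (max_le (hc.2.trans h2) (hτ.2.trans h2))
      exact ((hw' x (Ioo_subset_Icc_self hx')).hasDerivAt
        (Icc_mem_nhds hx'.1 hx'.2)).hasDerivWithinAt)
    (ContinuousOn.intervalIntegrable (hl.smul (by fun_prop)))
  refine ⟨∫ x in c..τ, lam x, ∫ x in c..τ, lam x * (x - m), ?_, ?_, ?_⟩
  · have := intervalIntegral.norm_integral_le_of_norm_le_const (a := c) (b := τ) (C := M)
      (f := lam) (fun x hx => hM x (hsub' (uIoc_subset_uIcc hx)))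
    rw [Real.norm_eq_abs] at this
    exact this.trans (mul_le_mul_of_nonneg_left hτc hM0)
  · have := intervalIntegral.norm_integral_le_of_norm_le_const (a := c) (b := τ)
      (C := M * ((t₂ - t₁) / 2)) (f := fun x => lam x * (x - m)) (fun x hx => by
        have hx' := hsub (uIoc_subset_uIcc hx)
        rw [Real.norm_eq_abs, abs_mul]
        apply mul_le_mul (hM x (hsub' (uIoc_subset_uIcc hx))) _ (abs_nonneg _) hM0
        rw [abs_le, hm]
        constructor <;> linarith [hx'.1, hx'.2])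
    rw [Real.norm_eq_abs] at this
    refine this.trans ?_
    have h3 : 0 ≤ t₂ - t₁ := (abs_nonneg _).trans hτc
    calc M * ((t₂ - t₁) / 2) * |τ - c| ≤ M * ((t₂ - t₁) / 2) * (t₂ - t₁) := by gcongr
      _ = _ := by ring
  · rw [← hftc, ← intervalIntegral.integral_smul_const, ← intervalIntegral.integral_smul_const,
      ← intervalIntegral.integral_add]
    · congr 1
      funext x
      module
    · exact ContinuousOn.intervalIntegrable (hl.smul (by fun_prop))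
    · exact ContinuousOn.intervalIntegrable ((hl.mul (by fun_prop)).smul (by fun_prop))

/-- the piece of the sweep over `[t₁, t₂]`. -/
def piece (e a b p₀ : E3) (L : ℝ) (R : ℝ → ℝ) (w : ℝ → E3) (t₁ t₂ : ℝ) : Set E3 :=
  {x | ∃ τ ∈ Icc t₁ t₂, ∃ ρ ∈ Icc 0 (R τ), ∃ s : ℝ, abs s ≤ L ∧
    x = p₀ + ρ • (a + τ • b) + s • (e + w τ)}

theorem piece_estimate {e a b p₀ : E3} (he : ‖e‖ = 1) (ha : inner ℝ a e = 0)
    (hb : inner ℝ b e = 0) (hab : LinearIndependent ℝ ![a, b]) {L : ℝ} (hL : 0 < L) {α β : ℝ}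
    {R : ℝ → ℝ} (hR0 : ∀ t ∈ Icc α β, 0 ≤ R t) {w : ℝ → E3}
    (hw : ∀ t ∈ Icc α β, inner ℝ (w t) e = 0) {lam : ℝ → ℝ} (hlam : ContinuousOn lam (Icc α β))
    (hw' : ∀ t ∈ Icc α β, HasDerivWithinAt w (lam t • (a + t • b)) (Icc α β) t) {M : ℝ}
    (hM : ∀ t ∈ Icc α β, |lam t| ≤ M) {Rm : ℝ} (hRm : ∀ t ∈ Icc α β, R t ≤ Rm)
    {t₁ t₂ c θ : ℝ} (h1 : α ≤ t₁) (h12 : t₁ < t₂) (h2 : t₂ ≤ β) (hc : c ∈ Icc t₁ t₂)
    (hθ : 0 < θ) (hθ1 : θ ≤ 1) (hRθ : ∀ τ ∈ Icc t₁ t₂, |R τ - R c| ≤ θ / 2)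
    (hh : 3 * (L * M) * (t₂ - t₁) ≤ θ / 2) :
    ∃ p q r : E3, (inner ℝ p (e + w c) = 0 ∧ inner ℝ q (e + w c) = 0 ∧ inner ℝ r (e + w c) = 0) ∧
      AffineIndependent ℝ ![p, q, r] ∧
      piece e a b p₀ L R w t₁ t₂ ⊆ cyl (e + w c) p q r ∧
      |triArea p q r - gram a b * ((t₂ - t₁) * (R c ^ 2 / (2 * Real.sqrt (1 + ‖w c‖ ^ 2))))| ≤
        gram a b * ((t₂ - t₁) * (θ * (Rm + 1))) ∧
      |(μHE[2] (proj (e + w c) '' piece e a b p₀ L R w t₁ t₂)).toReal -
          gram a b * ((t₂ - t₁) * (R c ^ 2 / (2 * Real.sqrt (1 + ‖w c‖ ^ 2))))| ≤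
        gram a b * ((t₂ - t₁) * (θ * (Rm + 1))) := by
  have hsub : Icc t₁ t₂ ⊆ Icc α β := Icc_subset_Icc h1 h2
  have hc' := hsub hc
  set U := e + w c with hU
  set h := t₂ - t₁ with hh_def
  have hh0 : 0 < h := by linarith
  set κ := gram a b with hκ
  have hκ0 : 0 < κ := gram_pos hab
  have hdet : |det3 a b U| = κ := det3_tilt he ha hb (hw c hc')
  set n := Real.sqrt (1 + ‖w c‖ ^ 2) with hn
  have hn1 : 1 ≤ n := Real.one_le_sqrt.2 (by nlinarith [sq_nonneg ‖w c‖])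
  have hUn : ‖U‖ = n := norm_tilt he (hw c hc')
  have hU0 : U ≠ 0 := by rw [← norm_pos_iff, hUn]; linarith
  have hM0 : 0 ≤ M := (abs_nonneg _).trans (hM c hc')
  have hRc := hR0 c hc'
  have hRc' := hRm c hc'
  obtain ⟨p, q, r, ho, hai, harea, hmem⟩ := tri_cover p₀ a b U hU0 ((t₁ + t₂) / 2) (h / 2)
    (2 * (L * M) * h) (R c + θ) (by positivity) (by positivity)
  have hin : proj U '' piece e a b p₀ L R w t₁ t₂ ⊆ convexHull ℝ ({p, q, r} : Set E3) := by
    rintro _ ⟨_, ⟨τ, hτ, ρ, hρ, s, hs, rfl⟩, rfl⟩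
    obtain ⟨A, B, hA, hB, hAB⟩ := displacement hlam hw' hM h1 h2 hc hτ
    have hsA : |s * A| ≤ L * M * h := by
      rw [abs_mul, mul_assoc]
      exact mul_le_mul hs hA (abs_nonneg _) hL.le
    have hsB : |s * B| ≤ L * M * h ^ 2 / 2 := by
      rw [abs_mul, mul_assoc, mul_div_assoc]
      exact mul_le_mul hs hB (abs_nonneg _) hL.le
    have hτm : |τ - (t₁ + t₂) / 2| ≤ h / 2 := by
      rw [abs_le]
      constructor <;> linarith [hτ.1, hτ.2]
    have hsA' := abs_le.1 hsA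
    have key := hmem (ρ + s * A) (ρ * (τ - (t₁ + t₂) / 2) + s * B) s ?_ ?_
    · convert key using 2
      have : w τ = w c + (A • (a + ((t₁ + t₂) / 2) • b) + B • b) := by rw [← hAB]; abel
      rw [this, hU]
      module
    · calc |ρ * (τ - (t₁ + t₂) / 2) + s * B| ≤ |ρ * (τ - (t₁ + t₂) / 2)| + |s * B| :=
            abs_add_le _ _
        _ ≤ ρ * (h / 2) + L * M * h ^ 2 / 2 := by
            rw [abs_mul, abs_of_nonneg hρ.1]
            exact add_le_add (mul_le_mul_of_nonneg_left hτm hρ.1) hsB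
        _ ≤ h / 2 * (ρ + s * A + 2 * (L * M) * h) := by nlinarith [hsA'.1]
    · have := abs_le.1 (hRθ τ hτ)
      linarith [hρ.2, hsA'.2, this.2]
  set ρ₀ := max (R c - θ) 0 with hρ₀
  have hρ₀0 : 0 ≤ ρ₀ := le_max_right _ _
  have hlow : proj U '' (par p₀ (ρ₀ • (a + t₁ • b)) (ρ₀ • (a + t₂ • b)) '' tri) ⊆
      proj U '' piece e a b p₀ L R w t₁ t₂ := by
    apply image_mono
    rintro _ ⟨z, ⟨hz1, hz2, hz3⟩, rfl⟩
    have hq0 : 0 ≤ z.2 / (z.1 + z.2) := by positivity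
    have hq1 : z.2 / (z.1 + z.2) ≤ 1 := div_le_one_of_le₀ (by linarith) (by linarith)
    have hτ : t₁ + z.2 / (z.1 + z.2) * h ∈ Icc t₁ t₂ := by
      constructor <;> nlinarith
    refine ⟨_, hτ, (z.1 + z.2) * ρ₀, ⟨by positivity, ?_⟩, 0, by simpa using hL.le, ?_⟩
    · have h3 := abs_le.1 (hRθ _ hτ)
      have h4 : ρ₀ ≤ R (t₁ + z.2 / (z.1 + z.2) * h) :=
        max_le (by linarith [h3.1]) (hR0 _ (hsub hτ))
      nlinarith
    · have e1 : (z.1 + z.2) * (z.2 / (z.1 + z.2)) = z.2 := by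
        by_cases h0 : z.1 + z.2 = 0
        · rw [h0, zero_mul]; linarith
        · field_simp
      simp only [par]
      have e2 : t₂ = t₁ + h := by linarith
      rw [e2]
      linear_combination (norm := module) (-(ρ₀ * h) * e1) • b
  have hfin : μHE[2] (convexHull ℝ ({p, q, r} : Set E3)) ≠ ⊤ := by
    rw [area_triangle]; exact ENNReal.ofReal_ne_top
  have hup : (μHE[2] (proj U '' piece e a b p₀ L R w t₁ t₂)).toReal ≤ triArea p q r :=
    ENNReal.toReal_mono hfin (measure_mono hin)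
  have hlo : κ * (h * (ρ₀ ^ 2 / (2 * n))) ≤
      (μHE[2] (proj U '' piece e a b p₀ L R w t₁ t₂)).toReal := by
    have h5 := ENNReal.toReal_mono (ne_top_of_le_ne_top hfin (measure_mono hin))
      (measure_mono hlow)
    rw [area_proj_par hU0, volume_tri, ← ENNReal.ofReal_mul (by positivity),
      ENNReal.toReal_ofReal (by positivity)] at h5
    have h6 : det3 (ρ₀ • (a + t₁ • b)) (ρ₀ • (a + t₂ • b)) U = ρ₀ ^ 2 * h * det3 a b U := by
      simp only [det3, hh_def, PiLp.add_apply, PiLp.smul_apply, smul_eq_mul]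
      ring
    rw [h6, abs_mul, hdet, abs_of_nonneg (by positivity), hUn] at h5
    refine le_trans (le_of_eq ?_) h5
    field_simp
  rw [hdet, hUn] at harea
  have harea' : triArea p q r = κ * (h * ((R c + θ) ^ 2 / (2 * n))) := by
    rw [harea]; field_simp
  have b1 : (R c + θ) ^ 2 / (2 * n) ≤ R c ^ 2 / (2 * n) + θ * (Rm + 1) := by
    rw [← sub_le_iff_le_add', ← sub_div, div_le_iff₀ (by positivity)]
    have : θ * (Rm + 1) * 2 ≤ θ * (Rm + 1) * (2 * n) := by
      apply mul_le_mul_of_nonneg_left (by linarith)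
      have : 0 ≤ Rm + 1 := by linarith
      positivity
    nlinarith
  have b2 : R c ^ 2 / (2 * n) - θ * (Rm + 1) ≤ ρ₀ ^ 2 / (2 * n) := by
    rw [sub_le_comm, ← sub_div, div_le_iff₀ (by positivity)]
    have h7 : θ * (Rm + 1) * 2 ≤ θ * (Rm + 1) * (2 * n) := by
      apply mul_le_mul_of_nonneg_left (by linarith)
      have : 0 ≤ Rm + 1 := by linarith
      positivity
    have h8 : R c - θ ≤ ρ₀ := le_max_left _ _
    have h9 : ρ₀ ≤ R c := max_le (by linarith) hRc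
    nlinarith
  have c1 : κ * (h * ((R c + θ) ^ 2 / (2 * n))) ≤ κ * (h * (R c ^ 2 / (2 * n) + θ * (Rm + 1))) := by
    gcongr
  have c2 : κ * (h * (R c ^ 2 / (2 * n) - θ * (Rm + 1))) ≤ κ * (h * (ρ₀ ^ 2 / (2 * n))) := by
    gcongr
  refine ⟨p, q, r, ho, hai (by rw [← abs_pos, hdet]; exact hκ0), ?_, ?_, ?_⟩
  · intro x hx
    exact mem_cyl_of_proj (hin (mem_image_of_mem _ hx))
  · rw [abs_le]
    constructor <;> linarith
  · rw [abs_le]
    constructor <;> linarith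

theorem sum_estimate {α β : ℝ} {f : ℝ → ℝ} (hf : ContinuousOn f (Icc α β)) {N : ℕ}
    {t : Fin (N + 1) → ℝ} {c : Fin N → ℝ} (ht : StrictMono t) (h0 : t 0 = α)
    (hN : t (Fin.last N) = β) {θ κ C : ℝ} (hκ : 0 ≤ κ)
    (hfθ : ∀ i : Fin N, ∀ τ ∈ Icc (t i.castSucc) (t i.succ), |f τ - f (c i)| ≤ θ)
    (X : Fin N → ℝ) (hX : ∀ i, |X i - κ * ((t i.succ - t i.castSucc) * f (c i))| ≤
      κ * ((t i.succ - t i.castSucc) * C)) :
    |∑ i, X i - κ * ∫ τ in α..β, f τ| ≤ κ * ((β - α) * (C + θ)) := by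
  have hmem : ∀ j, t j ∈ Icc α β := fun j =>
    ⟨h0 ▸ ht.monotone (Fin.zero_le j), hN ▸ ht.monotone (Fin.le_last j)⟩
  have hint : ∀ j k, IntervalIntegrable f volume (t j) (t k) := fun j k =>
    (hf.mono (uIcc_subset_Icc (hmem j) (hmem k))).intervalIntegrable
  have hsum : ∑ i : Fin N, ∫ τ in t i.castSucc..t i.succ, f τ = ∫ τ in α..β, f τ := by
    have := fin_telescope (fun j => ∫ τ in t 0..t j, f τ)
    simp only [intervalIntegral.integral_interval_sub_left (hint _ _) (hint _ _)] at this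
    rw [this, h0, hN]
  have hlen : ∑ i : Fin N, (t i.succ - t i.castSucc) = β - α := by rw [fin_telescope t, h0, hN]
  rw [← hsum, ← hlen, Finset.mul_sum, ← Finset.sum_sub_distrib, Finset.sum_mul, Finset.mul_sum]
  refine (Finset.abs_sum_le_sum_abs _ _).trans (Finset.sum_le_sum fun i _ => ?_)
  have hle : t i.castSucc ≤ t i.succ := (ht Fin.castSucc_lt_succ).le
  have h1 : |(∫ τ in t i.castSucc..t i.succ, f τ) - (t i.succ - t i.castSucc) * f (c i)| ≤
      (t i.succ - t i.castSucc) * θ := by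
    have := intervalIntegral.norm_integral_le_of_norm_le_const (a := t i.castSucc) (b := t i.succ)
      (C := θ) (f := fun τ => f τ - f (c i)) (fun x hx => by
        rw [uIoc_of_le hle] at hx
        exact hfθ i x (Ioc_subset_Icc_self hx))
    rw [intervalIntegral.integral_sub (hint _ _) (by simp), intervalIntegral.integral_const,
      smul_eq_mul, Real.norm_eq_abs, abs_of_nonneg (sub_nonneg.2 hle)] at this
    linarith
  have h2 := abs_le.1 (hX i)
  have h3 := abs_le.1 h1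
  have h4 := mul_le_mul_of_nonneg_left h3.1 hκ
  have h5 := mul_le_mul_of_nonneg_left h3.2 hκ
  rw [abs_le]
  constructor <;> nlinarith [h2.1, h2.2]

end Crest.Agent.R211
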