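import Crest.Agent.R211.Proj

/-!
An explicit cover of a regular tetrahedron by two families of thin triangular cylinders whose
total base area is below one half of the least projection area.
-/

open MeasureTheory Set
open scoped ENNReal

noncomputable section

namespace Crest.Agent.R211

/-- the cylinder with direction `u` over the triangle `p q r`. -/
def cyl (u p q r : E3) : Set E3 :=
  {x | ∃ b ∈ convexHull ℝ ({p, q, r} : Set E3), ∃ t : ℝ, x = b + t • u}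

/-- the area of the triangle `p q r`. -/
def triArea (p q r : E3) : ℝ := (μHE[2] (convexHull ℝ ({p, q, r} : Set E3))).toReal

theorem triArea_nonneg (p q r : E3) : 0 ≤ triArea p q r := ENNReal.toReal_nonneg

theorem triArea_eq (p q r : E3) : triArea p q r = gram (q - p) (r - p) / 2 := by
  rw [triArea, area_triangle, ENNReal.toReal_ofReal (by have := gram_nonneg (q - p) (r - p); positivity)]

theorem mem_cyl_of_proj {u p q r x : E3} (h : proj u x ∈ convexHull ℝ ({p, q, r} : Set E3)) :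
    x ∈ cyl u p q r := ⟨_, h, _, eq_proj_add u x⟩

theorem cyl_normalize {u : E3} (hu : u ≠ 0) (p q r : E3) :
    cyl u p q r ⊆ cyl (‖u‖⁻¹ • u) p q r := by
  rintro _ ⟨b, hb, t, rfl⟩
  refine ⟨b, hb, t * ‖u‖, ?_⟩
  have : ‖u‖ ≠ 0 := norm_ne_zero_iff.2 hu
  rw [smul_smul, mul_assoc, mul_inv_cancel₀ this, mul_one]

theorem convexHull_proj (u P A B : E3) :
    convexHull ℝ ({proj u P, proj u (P + A), proj u (P + B)} : Set E3) =
      proj u '' (par P A B '' tri) := by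
  rw [convexHull_three, image_image]
  simp only [proj_par, proj_add, add_sub_cancel_left]

theorem tri_cover (o a b u : E3) (hu : u ≠ 0) (m k d G : ℝ) (hk : 0 < k) (hG : 0 < G) :
    ∃ p q r : E3, (inner ℝ p u = 0 ∧ inner ℝ q u = 0 ∧ inner ℝ r u = 0) ∧
      (det3 a b u ≠ 0 → AffineIndependent ℝ ![p, q, r]) ∧
      triArea p q r = k * G ^ 2 * (|det3 a b u| / ‖u‖) ∧
      ∀ α β s : ℝ, |β| ≤ k * (α + d) → α + d ≤ G →
        proj u (o + α • (a + m • b) + β • b + s • u) ∈ convexHull ℝ ({p, q, r} : Set E3) := by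
  set P := o - d • (a + m • b) with hP
  set A := G • (a + (m + k) • b) with hA
  set B := G • (a + (m - k) • b) with hB
  have hdet : det3 A B u = -(2 * k * G ^ 2) * det3 a b u := by
    simp only [hA, hB, det3, PiLp.add_apply, PiLp.smul_apply, smul_eq_mul]
    ring
  refine ⟨proj u P, proj u (P + A), proj u (P + B),
    ⟨inner_proj hu _, inner_proj hu _, inner_proj hu _⟩, ?_, ?_, ?_⟩
  · intro hd
    rw [affineIndependent_iff_linearIndependent_vsub ℝ _ (0 : Fin 3),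
      ← linearIndependent_equiv (finSuccAboveEquiv (0 : Fin 3))]
    have : (fun i : {x // x ≠ (0 : Fin 3)} =>
        (![proj u P, proj u (P + A), proj u (P + B)] i -ᵥ
          ![proj u P, proj u (P + A), proj u (P + B)] 0 : E3)) ∘ finSuccAboveEquiv (0 : Fin 3)
        = ![proj u A, proj u B] := by
      ext1 i
      fin_cases i <;> simp [finSuccAboveEquiv_apply, proj_add]
    rw [this, LinearIndependent.pair_iff]
    intro s t hst
    have hne : det3 A B u ≠ 0 := by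
      rw [hdet]
      exact mul_ne_zero (by have : 0 < 2 * k * G ^ 2 := by positivity
                            linarith) hd
    have e1 : det3 (s • proj u A + t • proj u B) (proj u B) u = s * det3 A B u := by
      rw [← det3_proj u A B]
      simp only [det3, PiLp.add_apply, PiLp.smul_apply, smul_eq_mul]
      ring
    have e2 : det3 (proj u A) (s • proj u A + t • proj u B) u = t * det3 A B u := by
      rw [← det3_proj u A B]
      simp only [det3, PiLp.add_apply, PiLp.smul_apply, smul_eq_mul]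
      ring
    rw [hst] at e1 e2
    simp only [det3, PiLp.zero_apply, zero_mul, mul_zero, add_zero, sub_self] at e1 e2
    exact ⟨(mul_eq_zero.1 e1.symm).resolve_right hne, (mul_eq_zero.1 e2.symm).resolve_right hne⟩
  · rw [triArea, convexHull_proj, area_proj_par hu, volume_tri,
      ← ENNReal.ofReal_mul (by positivity), ENNReal.toReal_ofReal (by positivity), hdet, abs_mul,
      abs_neg, abs_of_pos (by positivity : 0 < 2 * k * G ^ 2)]
    ring
  · intro α β s h1 h2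
    rw [convexHull_proj, proj_add, proj_smul, proj_self hu, smul_zero, add_zero]
    have h3 := abs_le.1 h1
    refine ⟨_, ⟨((k * (α + d) + β) / (2 * k * G), (k * (α + d) - β) / (2 * k * G)),
      ⟨?_, ?_, ?_⟩, rfl⟩, ?_⟩
    · exact div_nonneg (by linarith [h3.1]) (by positivity)
    · exact div_nonneg (by linarith [h3.2]) (by positivity)
    · rw [← add_div, div_le_one (by positivity)]
      nlinarith
    · congr 1
      simp only [par, hP, hA, hB]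
      have e1 : (k * (α + d) + β) / (2 * k * G) * G + (k * (α + d) - β) / (2 * k * G) * G
          = α + d := by field_simp; ring
      have e2 : (k * (α + d) + β) / (2 * k * G) * G * k - (k * (α + d) - β) / (2 * k * G) * G * k
          = β := by field_simp; ring
      linear_combination (norm := module) e1 • (a + m • b) + e2 • b

theorem inv_sqrt_le {x : ℝ} (hx : 0 ≤ x) : 1 / Real.sqrt (1 + x) ≤ 1 - x / 2 + 3 * x ^ 2 / 8 := by
  set y := Real.sqrt (1 + x) with hy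
  have hy1 : 1 ≤ y := Real.one_le_sqrt.2 (by linarith)
  have hy2 : x = y ^ 2 - 1 := by rw [hy, Real.sq_sqrt (by linarith)]; ring
  rw [div_le_iff₀ (by linarith), hy2]
  have : 0 ≤ (y - 1) ^ 3 * (3 * y ^ 2 + 9 * y + 8) := by
    have : 0 ≤ y - 1 := by linarith
    positivity
  nlinarith

theorem exists_index {n : ℕ} {h t : ℝ} (hh : 0 < h) (hn : 0 < n) (h0 : 0 ≤ t) (h1 : t ≤ n * h) :
    ∃ i : Fin n, (i : ℝ) * h ≤ t ∧ t ≤ (i + 1) * h := by
  by_cases hlt : ⌊t / h⌋₊ < n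
  · refine ⟨⟨_, hlt⟩, ?_, ?_⟩
    · have := Nat.floor_le (div_nonneg h0 hh.le)
      rwa [le_div_iff₀ hh] at this
    · have := (Nat.lt_floor_add_one (t / h)).le
      rwa [div_le_iff₀ hh] at this
  · push Not at hlt
    have h2 : (n : ℝ) ≤ t / h := le_trans (by exact_mod_cast hlt) (Nat.floor_le (div_nonneg h0 hh.le))
    rw [le_div_iff₀ hh] at h2
    refine ⟨⟨n - 1, by omega⟩, ?_, ?_⟩
    · simp only [Nat.cast_pred hn]
      nlinarith
    · simp only [Nat.cast_pred hn]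
      linarith

/-- the cap of the radial sweeps. -/
def cap (ε t : ℝ) : ℝ := 1 / 2 + ε ^ 2 * (t ^ 2 / 4 + t ^ 4 / 4) + 3 * ε ^ 3

theorem area_bound {ε c : ℝ} (hε : 0 < ε) (hε1 : ε ≤ 1 / 1000) (hc : |c| ≤ 1) :
    (cap ε c + 3 * ε ^ 3) ^ 2 * (1 / Real.sqrt (1 + ε ^ 2 * (2 * c ^ 2 + (1 + c ^ 2) ^ 2 / 4))) ≤
      1 / 4 + ε ^ 2 * ((7 * c ^ 4 - 2 * c ^ 2 - 1) / 32) + 6 * ε ^ 3 + 2 * ε ^ 4 := by
  have hc2 : c ^ 2 ≤ 1 := by rwa [sq_le_one_iff_abs_le_one]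
  have hc0 : 0 ≤ c ^ 2 := sq_nonneg c
  have hc4 : c ^ 4 ≤ 1 := by nlinarith
  set W := 2 * c ^ 2 + (1 + c ^ 2) ^ 2 / 4 with hW
  have hW0 : 0 ≤ W := by positivity
  have hW3 : W ≤ 3 := by nlinarith
  set x := ε ^ 2 * W with hx
  have hx0 : 0 ≤ x := by positivity
  have hx3 : x ≤ 3 * ε ^ 2 := by nlinarith [sq_nonneg ε]
  set g := ε ^ 2 * (c ^ 2 / 4 + c ^ 4 / 4) + 6 * ε ^ 3 with hg
  have hg0 : 0 ≤ g := by positivity
  have hg1 : g ≤ 51 / 100 * ε ^ 2 := by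
    have h1 : ε ^ 2 * (c ^ 2 / 4 + c ^ 4 / 4) ≤ ε ^ 2 * (1 / 2) := by
      apply mul_le_mul_of_nonneg_left _ (sq_nonneg ε)
      linarith
    have h2 : 6 * ε ^ 3 ≤ 1 / 100 * ε ^ 2 := by nlinarith [sq_nonneg ε]
    linarith
  have hε2 : ε ^ 2 ≤ 1 / 1000000 := by nlinarith
  have hG : cap ε c + 3 * ε ^ 3 = 1 / 2 + g := by simp only [cap, hg]; ring
  rw [hG]
  have h1 := inv_sqrt_le hx0
  have h2 : (1 / 2 + g) ^ 2 * (1 / Real.sqrt (1 + x)) ≤
      (1 / 2 + g) ^ 2 * (1 - x / 2 + 3 * x ^ 2 / 8) := by gcongr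
  refine h2.trans ?_
  have h3 : g ^ 2 ≤ (51 / 100 * ε ^ 2) ^ 2 := pow_le_pow_left₀ hg0 hg1 2
  have h4 : x ^ 2 ≤ (3 * ε ^ 2) ^ 2 := pow_le_pow_left₀ hx0 hx3 2
  have h5 : (1 / 2 + g) ^ 2 ≤ 1 / 3 := by nlinarith
  have h6 : (1 / 2 + g) ^ 2 * x ^ 2 ≤ 1 / 3 * (3 * ε ^ 2) ^ 2 :=
    mul_le_mul h5 h4 (sq_nonneg _) (by norm_num)
  have h7 : 0 ≤ (g + g ^ 2) * x := by positivity
  have e : ε ^ 2 * ((7 * c ^ 4 - 2 * c ^ 2 - 1) / 32) + 6 * ε ^ 3 = g - x / 8 := by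
    simp only [hg, hx, hW]; ring
  have h8 : 0 ≤ ε ^ 4 := by positivity
  nlinarith

theorem riemann_bound {δ : ℝ} (hδ : 0 < δ) {n : ℕ} (hn : n * δ = 1) :
    ∑ i : Fin n, δ * ((7 * (-1 + (2 * (i : ℝ) + 1) * δ) ^ 4 - 2 * (-1 + (2 * (i : ℝ) + 1) * δ) ^ 2
      - 1) / 32) ≤ -1 / 120 + δ ^ 2 / 48 := by
  let F : ℝ → ℝ := fun t => (7 * t ^ 5 / 5 - 2 * t ^ 3 / 3 - t) / 64
  let g : ℕ → ℝ := fun i => F (-1 + 2 * i * δ) + i * (δ ^ 3 / 48)
  have h : ∀ i : ℕ, δ * ((7 * (-1 + (2 * (i : ℝ) + 1) * δ) ^ 4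
      - 2 * (-1 + (2 * (i : ℝ) + 1) * δ) ^ 2 - 1) / 32) ≤ g (i + 1) - g i := by
    intro i
    set c := -1 + (2 * (i : ℝ) + 1) * δ with hc
    have e1 : -1 + 2 * ((i + 1 : ℕ) : ℝ) * δ = c + δ := by push_cast; ring
    have e2 : -1 + 2 * (i : ℝ) * δ = c - δ := by ring
    simp only [g, F]
    rw [e1, e2]
    push_cast
    have : 0 ≤ δ ^ 3 * c ^ 2 := by positivity
    have : 0 ≤ δ ^ 5 := by positivity
    nlinarith
  rw [Fin.sum_univ_eq_sum_range (fun i : ℕ => δ * ((7 * (-1 + (2 * (i : ℝ) + 1) * δ) ^ 4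
      - 2 * (-1 + (2 * (i : ℝ) + 1) * δ) ^ 2 - 1) / 32)) n]
  refine (Finset.sum_le_sum fun i _ => h i).trans ?_
  rw [Finset.sum_range_sub]
  have e : -1 + 2 * (n : ℝ) * δ = 1 := by linarith
  have e3 : (n : ℝ) * (δ ^ 3 / 48) = δ ^ 2 / 48 := by linear_combination δ ^ 2 / 48 * hn
  simp only [g, F]
  rw [e, e3]
  norm_num
  linarith

theorem family {l : ℝ} (hl : 0 < l) (o : E3) {e b a : E3} (h : Frame l e b a) {ε : ℝ}
    (hε : 0 < ε) (hε1 : ε ≤ 1 / 1000) {n : ℕ} (hn : n * ε ^ 2 = 1) :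
    ∃ u p q r : Fin n → E3, (∀ i, ‖u i‖ = 1) ∧
      (∀ i, inner ℝ (p i) (u i) = 0 ∧ inner ℝ (q i) (u i) = 0 ∧ inner ℝ (r i) (u i) = 0) ∧
      (∀ t ρ s : ℝ, |t| ≤ 1 → 0 ≤ ρ → ρ ≤ cap ε t → |s| ≤ 1 →
        o + s • e + (ρ * t + s * ε * (1 + t ^ 2) / 2) • b + (ρ + s * ε * t) • a ∈
          ⋃ i, cyl (u i) (p i) (q i) (r i)) ∧
      ∑ i, triArea (p i) (q i) (r i) ≤
        Real.sqrt 2 * l ^ 2 * (1 / 4 - ε ^ 2 / 120 + 6 * ε ^ 3 + 3 * ε ^ 4) := by
  set δ := ε ^ 2 with hδ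
  have hδ0 : 0 < δ := by positivity
  have hn0 : 0 < n := by
    rcases Nat.eq_zero_or_pos n with rfl | h
    · simp at hn
    · exact h
  let c : Fin n → ℝ := fun i => -1 + (2 * (i : ℝ) + 1) * δ
  have hc : ∀ i, |c i| ≤ 1 := by
    intro i
    have h1 : (0 : ℝ) ≤ i := Nat.cast_nonneg _
    have h2 : ((i : ℕ) : ℝ) + 1 ≤ n := by exact_mod_cast i.2
    rw [abs_le]
    constructor
    · simp only [c]; nlinarith
    · simp only [c]; nlinarith
  let U : Fin n → E3 := fun i => (1 : ℝ) • e + (ε * (1 + c i ^ 2) / 2) • b + (ε * c i) • a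
  have hU : ∀ i, ‖U i‖ = l * Real.sqrt (1 + ε ^ 2 * (2 * c i ^ 2 + (1 + c i ^ 2) ^ 2 / 4)) := by
    intro i
    rw [← sq_eq_sq₀ (norm_nonneg _) (by positivity), mul_pow, Real.sq_sqrt (by positivity),
      normSq_orth h.i12 h.i13 h.i23, h.n1, h.n2, h.n3]
    ring
  have hU0 : ∀ i, U i ≠ 0 := by
    intro i
    rw [← norm_pos_iff, hU]
    positivity
  have hdet : ∀ i, |det3 a b (U i)| = Real.sqrt 2 * l ^ 3 := by
    intro i
    have : det3 a b (U i) = -det3 e b a := by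
      simp only [U, det3, PiLp.add_apply, PiLp.smul_apply, smul_eq_mul]; ring
    rw [← sq_eq_sq₀ (abs_nonneg _) (by positivity), sq_abs, this, neg_sq, h.det_sq, mul_pow,
      Real.sq_sqrt (by norm_num)]
    ring
  have hcap : ∀ t, 0 < cap ε t := fun t => by unfold cap; positivity
  choose p q r hpqr using fun i => tri_cover o a b (U i) (hU0 i) (c i) δ (3 * ε ^ 3 / 2)
    (cap ε (c i) + 3 * ε ^ 3) hδ0 (by have := hcap (c i); positivity)
  refine ⟨fun i => ‖U i‖⁻¹ • U i, p, q, r, fun i => norm_smul_inv_norm (hU0 i), ?_, ?_, ?_⟩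
  · intro i
    obtain ⟨⟨h1, h2, h3⟩, -⟩ := hpqr i
    simp only [real_inner_smul_right, h1, h2, h3, mul_zero, and_self]
  · intro t ρ s ht hρ0 hρ hs
    have ht' := abs_le.1 ht
    obtain ⟨i, hi1, hi2⟩ := exists_index (t := t + 1) (h := 2 * δ) (by positivity) hn0
      (by linarith) (by nlinarith)
    refine mem_iUnion.2 ⟨i, cyl_normalize (hU0 i) _ _ _ (mem_cyl_of_proj ?_)⟩
    obtain ⟨-, -, -, h4⟩ := hpqr i
    set v := t - c i with hv
    have hv1 : |v| ≤ δ := by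
      rw [abs_le]
      constructor
      · simp only [hv, c]; linarith
      · simp only [hv, c]; linarith
    have hsv : |s * ε * v| ≤ ε ^ 3 := by
      rw [abs_mul, abs_mul, abs_of_pos hε]
      calc |s| * ε * |v| ≤ 1 * ε * δ := by gcongr
        _ = ε ^ 3 := by rw [hδ]; ring
    have hsv' := abs_le.1 hsv
    have key := h4 (ρ + s * ε * v) (ρ * v + s * ε * v * v / 2) s ?_ ?_
    · convert key using 2
      have ht2 : t = c i + v := by rw [hv]; ring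
      simp only [U]
      rw [ht2]
      module
    · calc |ρ * v + s * ε * v * v / 2| ≤ |ρ * v| + |s * ε * v * v / 2| := abs_add_le _ _
        _ = ρ * |v| + |s * ε * v| * |v| / 2 := by
          rw [abs_mul, abs_of_nonneg hρ0, abs_div, abs_mul (s * ε * v), abs_two]
        _ ≤ ρ * δ + ε ^ 3 * δ / 2 := by gcongr
        _ ≤ δ * (ρ + s * ε * v + 3 * ε ^ 3 / 2) := by nlinarith [hsv'.1]
    · have hci := abs_le.1 (hc i)
      have h5 : (t ^ 2 / 4 + t ^ 4 / 4) - (c i ^ 2 / 4 + c i ^ 4 / 4) ≤ ε / 2 := by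
        have e : (t ^ 2 / 4 + t ^ 4 / 4) - (c i ^ 2 / 4 + c i ^ 4 / 4) =
            v * ((t + c i) * (1 + t ^ 2 + c i ^ 2) / 4) := by rw [hv]; ring
        rw [e]
        have h6 : |(t + c i) * (1 + t ^ 2 + c i ^ 2) / 4| ≤ 3 / 2 := by
          rw [abs_div, abs_mul, abs_of_pos (by norm_num : (0 : ℝ) < 4),
            abs_of_pos (by positivity : 0 < 1 + t ^ 2 + c i ^ 2)]
          have h7 : |t + c i| ≤ 2 := by rw [abs_le]; constructor <;> linarith
          have h8 : 1 + t ^ 2 + c i ^ 2 ≤ 3 := by nlinarith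
          calc |t + c i| * (1 + t ^ 2 + c i ^ 2) / 4 ≤ 2 * 3 / 4 := by gcongr
            _ = 3 / 2 := by norm_num
        calc v * ((t + c i) * (1 + t ^ 2 + c i ^ 2) / 4)
            ≤ |v| * |(t + c i) * (1 + t ^ 2 + c i ^ 2) / 4| := by
              rw [← abs_mul]; exact le_abs_self _
          _ ≤ δ * (3 / 2) := by gcongr
          _ ≤ ε / 2 := by rw [hδ]; nlinarith
      have h9 : ε ^ 2 * ((t ^ 2 / 4 + t ^ 4 / 4) - (c i ^ 2 / 4 + c i ^ 4 / 4)) ≤ ε ^ 2 * (ε / 2) :=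
        mul_le_mul_of_nonneg_left h5 (sq_nonneg ε)
      unfold cap at hρ ⊢
      nlinarith [hsv'.2]
  · have hb : ∀ i, triArea (p i) (q i) (r i) ≤ Real.sqrt 2 * l ^ 2 *
        (δ * (1 / 4 + 6 * ε ^ 3 + 2 * ε ^ 4) +
          ε ^ 2 * (δ * ((7 * c i ^ 4 - 2 * c i ^ 2 - 1) / 32))) := by
      intro i
      obtain ⟨-, -, h3, -⟩ := hpqr i
      rw [h3, hdet, hU]
      have := area_bound hε hε1 (hc i)
      calc δ * (cap ε (c i) + 3 * ε ^ 3) ^ 2 * (Real.sqrt 2 * l ^ 3 /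
            (l * Real.sqrt (1 + ε ^ 2 * (2 * c i ^ 2 + (1 + c i ^ 2) ^ 2 / 4))))
          = Real.sqrt 2 * l ^ 2 * δ * ((cap ε (c i) + 3 * ε ^ 3) ^ 2 *
            (1 / Real.sqrt (1 + ε ^ 2 * (2 * c i ^ 2 + (1 + c i ^ 2) ^ 2 / 4)))) := by
            field_simp
        _ ≤ Real.sqrt 2 * l ^ 2 * δ * (1 / 4 + ε ^ 2 * ((7 * c i ^ 4 - 2 * c i ^ 2 - 1) / 32)
            + 6 * ε ^ 3 + 2 * ε ^ 4) := by gcongr
        _ = _ := by ring
    refine (Finset.sum_le_sum fun i _ => hb i).trans ?_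
    rw [← Finset.mul_sum, Finset.sum_add_distrib, Finset.sum_const, ← Finset.mul_sum,
      Finset.card_univ, Fintype.card_fin, nsmul_eq_mul, ← mul_assoc (n : ℝ), hn, one_mul]
    have hr := riemann_bound hδ0 hn
    have h1 : ε ^ 2 * ∑ i, δ * ((7 * c i ^ 4 - 2 * c i ^ 2 - 1) / 32) ≤
        ε ^ 2 * (-1 / 120 + δ ^ 2 / 48) := mul_le_mul_of_nonneg_left hr (sq_nonneg ε)
    have h2 : ε ^ 2 * (δ ^ 2 / 48) ≤ ε ^ 4 := by
      rw [hδ]
      have : ε ^ 2 ≤ 1 := by nlinarith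
      have h4 : 0 ≤ ε ^ 4 := by positivity
      nlinarith
    apply mul_le_mul_of_nonneg_left _ (by positivity)
    have h3 : δ / 120 = ε ^ 2 / 120 := rfl
    linarith

/-- radial coordinates of a point of the wedge. -/
theorem exists_radial {ε x y α : ℝ} (hy : |y| ≤ α) :
    ∃ t ρ : ℝ, |t| ≤ 1 ∧ 0 ≤ ρ ∧ y = ρ * t + x * ε * (1 + t ^ 2) / 2 ∧ α = ρ + x * ε * t := by
  obtain ⟨hy1, hy2⟩ := abs_le.1 hy
  have hα : 0 ≤ α := by linarith
  set k := x * ε with hk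
  let φ : ℝ → ℝ := fun t => k * (1 - t ^ 2) / 2 + α * t
  have hφ : Continuous φ := by fun_prop
  suffices h : ∃ t : ℝ, |t| ≤ 1 ∧ k * t ≤ α ∧ φ t = y by
    obtain ⟨t, h1, h2, h3⟩ := h
    refine ⟨t, α - k * t, h1, by linarith, ?_, by ring⟩
    rw [← h3]
    simp only [φ]
    ring
  by_cases h : |k| ≤ α
  · have hmem : y ∈ Icc (φ (-1)) (φ 1) := by
      simp only [φ]
      constructor <;> linarith
    obtain ⟨t, ht, hty⟩ := intermediate_value_Icc (by norm_num : (-1 : ℝ) ≤ 1) hφ.continuousOn hmem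
    have ht' : |t| ≤ 1 := abs_le.2 ht
    refine ⟨t, ht', ?_, hty⟩
    calc k * t ≤ |k| * |t| := by rw [← abs_mul]; exact le_abs_self _
      _ ≤ α * 1 := by gcongr
      _ = α := mul_one _
  · push Not at h
    have hk0 : k ≠ 0 := by
      intro h0
      rw [h0, abs_zero] at h
      linarith
    set t₀ := α / k with ht₀
    have hα' : α = k * t₀ := by rw [ht₀]; field_simp
    rcases lt_or_gt_of_ne hk0 with hneg | hpos
    · rw [abs_of_neg hneg] at h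
      have h1 : t₀ ≤ 0 := div_nonpos_of_nonneg_of_nonpos hα hneg.le
      have h2 : -1 ≤ t₀ := by nlinarith
      have hmem : y ∈ Icc (φ t₀) (φ 1) := by
        simp only [φ]
        constructor
        · have : k * (1 + t₀) ^ 2 ≤ 0 := mul_nonpos_of_nonpos_of_nonneg hneg.le (sq_nonneg _)
          nlinarith
        · linarith
      obtain ⟨t, ht, hty⟩ := intermediate_value_Icc (by linarith : t₀ ≤ 1) hφ.continuousOn hmem
      refine ⟨t, abs_le.2 ⟨by linarith [ht.1], ht.2⟩, ?_, hty⟩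
      nlinarith [ht.1]
    · rw [abs_of_pos hpos] at h
      have h1 : 0 ≤ t₀ := div_nonneg hα hpos.le
      have h2 : t₀ ≤ 1 := by nlinarith
      have hmem : y ∈ Icc (φ (-1)) (φ t₀) := by
        simp only [φ]
        constructor
        · linarith
        · have : 0 ≤ k * (1 - t₀) ^ 2 := by positivity
          nlinarith
      obtain ⟨t, ht, hty⟩ := intermediate_value_Icc (by linarith : -1 ≤ t₀) hφ.continuousOn hmem
      refine ⟨t, abs_le.2 ⟨ht.1, by linarith [ht.2]⟩, ?_, hty⟩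
      nlinarith [ht.2]

/-- the two sweeps overlap. -/
theorem caps_overlap {ε x y α t ρ τ σ : ℝ} (hε : 0 < ε) (hx : |x| ≤ 1) (hy : |y| ≤ 1)
    (ht : |t| ≤ 1) (hτ : |τ| ≤ 1) (e1 : y = ρ * t + x * ε * (1 + t ^ 2) / 2)
    (e2 : α = ρ + x * ε * t) (e3 : -x = σ * τ + y * ε * (1 + τ ^ 2) / 2)
    (e4 : 1 - α = σ + y * ε * τ) : ρ ≤ cap ε t ∨ σ ≤ cap ε τ := by
  by_contra hcon
  push Not at hcon
  obtain ⟨h1, h2⟩ := hcon
  unfold cap at h1 h2
  set γ := α - 1 / 2 with hγ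
  have ht2 : t ^ 2 ≤ 1 := by rwa [sq_le_one_iff_abs_le_one]
  have hτ2 : τ ^ 2 ≤ 1 := by rwa [sq_le_one_iff_abs_le_one]
  have p1 : 0 ≤ ε ^ 2 * (t ^ 2 / 4 + t ^ 4 / 4) + 3 * ε ^ 3 := by positivity
  have p2 : 0 ≤ ε ^ 2 * (τ ^ 2 / 4 + τ ^ 4 / 4) + 3 * ε ^ 3 := by positivity
  have g1 : ε * (x * t) < γ := by linarith
  have g2 : γ < -(ε * (y * τ)) := by linarith
  have hxt : |x * t| ≤ 1 := by rw [abs_mul]; exact mul_le_one₀ hx (abs_nonneg _) ht
  have hyτ : |y * τ| ≤ 1 := by rw [abs_mul]; exact mul_le_one₀ hy (abs_nonneg _) hτ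
  have hγ1 : |γ| ≤ ε := by
    rw [abs_le] at hxt hyτ ⊢
    constructor <;> nlinarith [hxt.1, hyτ.1]
  set A := (1 - t ^ 2) / 2 with hA
  set B := (1 - τ ^ 2) / 2 with hB
  have hA0 : 0 ≤ A := by rw [hA]; linarith
  have hB0 : 0 ≤ B := by rw [hB]; linarith
  have hA1 : A ≤ 1 / 2 := by rw [hA]; nlinarith [sq_nonneg t]
  have hB1 : B ≤ 1 / 2 := by rw [hB]; nlinarith [sq_nonneg τ]
  have ey : y - t / 2 = γ * t + ε * (x * A) := by rw [hA, hγ]; linear_combination e1 - t * e2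
  have ex : x + τ / 2 = γ * τ - ε * (y * B) := by rw [hB, hγ]; linear_combination -e3 + τ * e4
  have by1 : |y - t / 2| ≤ 3 / 2 * ε := by
    rw [ey]
    calc |γ * t + ε * (x * A)| ≤ |γ * t| + |ε * (x * A)| := abs_add_le _ _
      _ = |γ| * |t| + ε * (|x| * A) := by
        rw [abs_mul, abs_mul, abs_mul, abs_of_pos hε, abs_of_nonneg hA0]
      _ ≤ ε * 1 + ε * (1 * (1 / 2)) := by gcongr
      _ = 3 / 2 * ε := by ring
  have bx1 : |x + τ / 2| ≤ 3 / 2 * ε := by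
    rw [ex]
    calc |γ * τ - ε * (y * B)| ≤ |γ * τ| + |ε * (y * B)| := abs_sub _ _
      _ = |γ| * |τ| + ε * (|y| * B) := by
        rw [abs_mul, abs_mul, abs_mul, abs_of_pos hε, abs_of_nonneg hB0]
      _ ≤ ε * 1 + ε * (1 * (1 / 2)) := by gcongr
      _ = 3 / 2 * ε := by ring
  set b₁ := y - t / 2 with hb₁
  set b₂ := x + τ / 2 with hb₂
  have bound : ∀ b w : ℝ, |b| ≤ 3 / 2 * ε → |w| ≤ 1 → |b * w| ≤ 3 / 2 * ε := by
    intro b w hb hw
    rw [abs_mul]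
    calc |b| * |w| ≤ 3 / 2 * ε * 1 := by gcongr
      _ = _ := mul_one _
  have habs : ∀ u v : ℝ, |u| ≤ 1 → |v| ≤ 1 → |u * v| ≤ 1 := fun u v hu hv => by
    rw [abs_mul]; exact mul_le_one₀ hu (abs_nonneg _) hv
  have k1 : -2 * γ * (t * τ) ≤ ε * (t ^ 2 * τ ^ 2) + 3 * ε ^ 2 := by
    rcases le_total 0 (t * τ) with h | h
    · have q1 : -2 * γ * (t * τ) ≤ -2 * (ε * (x * t)) * (t * τ) := by nlinarith
      have q2 := abs_le.1 (bound b₂ (t * (t * τ)) bx1 (habs _ _ ht (habs _ _ ht hτ)))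
      have q3 : -2 * (ε * (x * t)) * (t * τ) =
          ε * (t ^ 2 * τ ^ 2) - 2 * ε * (b₂ * (t * (t * τ))) := by rw [hb₂]; ring
      nlinarith [q2.1]
    · have q1 : -2 * γ * (t * τ) ≤ 2 * (ε * (y * τ)) * (t * τ) := by nlinarith
      have q2 := abs_le.1 (bound b₁ (τ * (t * τ)) by1 (habs _ _ hτ (habs _ _ ht hτ)))
      have q3 : 2 * (ε * (y * τ)) * (t * τ) =
          ε * (t ^ 2 * τ ^ 2) + 2 * ε * (b₁ * (τ * (t * τ))) := by rw [hb₁]; ring
      nlinarith [q2.2]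
  have k2 : -(A * (x * τ)) ≤ A * τ ^ 2 / 2 + 3 / 4 * ε := by
    have q2 := abs_le.1 (bound b₂ τ bx1 hτ)
    have q3 : -(A * (x * τ)) = A * τ ^ 2 / 2 - A * (b₂ * τ) := by rw [hb₂]; ring
    nlinarith [q2.1]
  have k3 : B * (y * t) ≤ B * t ^ 2 / 2 + 3 / 4 * ε := by
    have q2 := abs_le.1 (bound b₁ t by1 ht)
    have q3 : B * (y * t) = B * t ^ 2 / 2 + B * (b₁ * t) := by rw [hb₁]; ring
    nlinarith [q2.2]
  have k4 : -(x * t + y * τ) = -2 * γ * (t * τ) + ε * (-(A * (x * τ)) + B * (y * t)) := by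
    have ey' : y = t / 2 + γ * t + ε * (x * A) := by linarith
    have ex' : x = -(τ / 2) + γ * τ - ε * (y * B) := by linarith
    linear_combination -t * ex' - τ * ey'
  have k5 : -(x * t + y * τ) ≤
      ε * (t ^ 2 * τ ^ 2 + A * τ ^ 2 / 2 + B * t ^ 2 / 2) + 9 / 2 * ε ^ 2 := by
    have := mul_le_mul_of_nonneg_left (add_le_add k2 k3) hε.le
    nlinarith
  have k6 : t ^ 2 * τ ^ 2 + A * τ ^ 2 / 2 + B * t ^ 2 / 2 ≤
      (t ^ 2 / 4 + t ^ 4 / 4) + (τ ^ 2 / 4 + τ ^ 4 / 4) := by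
    rw [hA, hB]
    nlinarith [sq_nonneg (t ^ 2 - τ ^ 2)]
  have k7 : ε * (ε * ((t ^ 2 / 4 + t ^ 4 / 4) + (τ ^ 2 / 4 + τ ^ 4 / 4)) + 6 * ε ^ 2) <
      ε * (-(x * t + y * τ)) := by nlinarith
  have k8 := lt_of_mul_lt_mul_left k7 hε.le
  have k9 := mul_le_mul_of_nonneg_left k6 hε.le
  nlinarith [sq_nonneg ε]

theorem Frame.swap {l : ℝ} {f₁ f₂ f₃ : E3} (h : Frame l f₁ f₂ f₃) : Frame l f₂ (-f₁) (-f₃) where
  n1 := h.n2
  n2 := by rw [norm_neg, h.n1]
  n3 := by rw [norm_neg, h.n3]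
  i12 := by rw [inner_neg_right, real_inner_comm, h.i12, neg_zero]
  i13 := by rw [inner_neg_right, h.i23, neg_zero]
  i23 := by rw [inner_neg_right, inner_neg_left, h.i13, neg_zero, neg_zero]

/-- the explicit cover of a regular tetrahedron by two million triangular cylinders. -/
theorem frame_cover {l : ℝ} (hl : 0 < l) {o f₁ f₂ f₃ : E3} (h : Frame l f₁ f₂ f₃) {T : Set E3}
    (hT : ∀ p ∈ T, p = o + f₁ ∨ p = o - f₁ ∨ p = o + f₂ + f₃ ∨ p = o - f₂ + f₃) :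
    ∃ (n : ℕ) (u p q r : Fin n ⊕ Fin n → E3), n ≤ 1000000 ∧ (∀ i, ‖u i‖ = 1) ∧
      (∀ i, inner ℝ (p i) (u i) = 0 ∧ inner ℝ (q i) (u i) = 0 ∧ inner ℝ (r i) (u i) = 0) ∧
      convexHull ℝ T ⊆ ⋃ i, cyl (u i) (p i) (q i) (r i) ∧
      ∑ i, triArea (p i) (q i) (r i) ≤ Real.sqrt 2 * l ^ 2 * (1 / 2 - 1 / 10 ^ 9) := by
  obtain ⟨n, hn1, hn⟩ : ∃ n : ℕ, n ≤ 1000000 ∧ (n : ℝ) * (1 / 1000) ^ 2 = 1 :=
    ⟨1000000, le_rfl, by norm_num⟩
  have hε : (0 : ℝ) < 1 / 1000 := by norm_num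
  obtain ⟨u, p, q, r, hu, ho, hc, ha⟩ := family hl o h hε le_rfl hn
  obtain ⟨u', p', q', r', hu', ho', hc', ha'⟩ := family hl (o + f₃) h.swap hε le_rfl hn
  refine ⟨n, Sum.elim u u', Sum.elim p p', Sum.elim q q', Sum.elim r r', hn1, ?_, ?_, ?_, ?_⟩
  · rintro (i | i)
    · exact hu i
    · exact hu' i
  · rintro (i | i)
    · exact ho i
    · exact ho' i
  · intro z hz
    obtain ⟨x, y, α, hy, hx, rfl⟩ := mem_tet_coords hT hz
    have hx1 : |x| ≤ 1 := by linarith [abs_nonneg y]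
    have hy1 : |y| ≤ 1 := by linarith [abs_nonneg x]
    obtain ⟨t, ρ, ht, hρ, e1, e2⟩ := exists_radial (ε := 1 / 1000) (x := x) hy
    obtain ⟨τ, σ, hτ, hσ, e3, e4⟩ := exists_radial (ε := 1 / 1000) (x := y) (y := -x) (α := 1 - α)
      (by rwa [abs_neg])
    rcases caps_overlap hε hx1 hy1 ht hτ e1 e2 e3 e4 with hle | hle
    · obtain ⟨i, hi⟩ := mem_iUnion.1 (hc t ρ x ht hρ hle hx1)
      refine mem_iUnion.2 ⟨Sum.inl i, ?_⟩
      rw [← e1, ← e2] at hi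
      exact hi
    · obtain ⟨i, hi⟩ := mem_iUnion.1 (hc' τ σ y hτ hσ hle hy1)
      refine mem_iUnion.2 ⟨Sum.inr i, ?_⟩
      rw [← e3, ← e4] at hi
      have e : o + x • f₁ + y • f₂ + α • f₃ = o + f₃ + y • f₂ + -x • -f₁ + (1 - α) • -f₃ := by
        module
      rw [e]
      exact hi
  · rw [Fintype.sum_sum_type]
    simp only [Sum.elim_inl, Sum.elim_inr]
    have h0 : 0 ≤ Real.sqrt 2 * l ^ 2 := by positivity
    refine (add_le_add ha ha').trans ?_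
    rw [← mul_add]
    apply mul_le_mul_of_nonneg_left _ h0
    norm_num

end Crest.Agent.R211
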