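import Crest.Agent.R211.Square
import Crest.Agent.R211.Para

/-!
The weight `(1 + g₁² + h² g₂²)^(-1/2)` and the lift of sheared cylinders to `ℝ³`.
-/

open MeasureTheory Set Metric
open scoped ENNReal

noncomputable section

namespace Crest.Agent.R211

/-- the tilt weight. -/
def wt (h : ℝ) (g : E2) : ℝ := 1 / Real.sqrt (1 + (g 0) ^ 2 + h ^ 2 * (g 1) ^ 2)

theorem one_le_sqrt_wt (h : ℝ) (g : E2) : 1 ≤ Real.sqrt (1 + (g 0) ^ 2 + h ^ 2 * (g 1) ^ 2) :=
  Real.one_le_sqrt.2 (by nlinarith [sq_nonneg (g 0), mul_nonneg (sq_nonneg h) (sq_nonneg (g 1))])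

theorem continuous_wt (h : ℝ) : Continuous (wt h) := by
  unfold wt
  refine Continuous.div continuous_const (by fun_prop) fun g => ?_
  have := one_le_sqrt_wt h g
  linarith

theorem wt_nonneg (h : ℝ) (g : E2) : 0 ≤ wt h g := by unfold wt; positivity

theorem wt_le_one (h : ℝ) (g : E2) : wt h g ≤ 1 := by
  unfold wt
  have := one_le_sqrt_wt h g
  rw [div_le_one (by linarith)]
  exact this

/-- the lift of a plane vector to the plane `x = 0`, stretched by `h`. -/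
def lift (h : ℝ) (a : E2) : E3 := !₂[0, a 0, h * a 1]

/-- the axis direction for the velocity `g`. -/
def axis (h : ℝ) (g : E2) : E3 := !₂[1, g 0, h * g 1]

theorem norm_axis (h : ℝ) (g : E2) :
    ‖axis h g‖ = Real.sqrt (1 + (g 0) ^ 2 + h ^ 2 * (g 1) ^ 2) := by
  rw [← Real.sqrt_sq (norm_nonneg (axis h g)), normSq3]
  congr 1
  simp [axis]
  ring

theorem axis_ne_zero (h : ℝ) (g : E2) : axis h g ≠ 0 := by
  rw [← norm_pos_iff, norm_axis]
  have := one_le_sqrt_wt h g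
  linarith

theorem det3_lift {h : ℝ} (hh : 0 < h) {a b : E2} (g : E2) (h1 : ‖b‖ = ‖a‖)
    (h2 : inner ℝ a b = 0) : |det3 (lift h a) (lift h b) (axis h g)| = h * ‖a‖ ^ 2 := by
  have e : det3 (lift h a) (lift h b) (axis h g) = h * (a 0 * b 1 - a 1 * b 0) := by
    simp [det3, lift, axis]
    ring
  rw [e, abs_mul, abs_of_pos hh]
  congr 1
  rw [← sq_eq_sq₀ (abs_nonneg _) (sq_nonneg _), sq_abs]
  have ha : ‖a‖ ^ 2 = a 0 ^ 2 + a 1 ^ 2 := by rw [← real_inner_self_eq_norm_sq, inner2]; ring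
  have hb : ‖a‖ ^ 2 = b 0 ^ 2 + b 1 ^ 2 := by
    rw [← h1, ← real_inner_self_eq_norm_sq, inner2]; ring
  rw [inner2] at h2
  linear_combination -(a 0 * b 0 + a 1 * b 1) * h2 - ‖a‖ ^ 2 * hb - (b 0 ^ 2 + b 1 ^ 2) * ha

theorem lift_cover {h : ℝ} (hh : 0 < h) {V : E2 → E2} {M : ℝ} {D : Set E2} {C : ℝ}
    (hC : Cov (wt h) (ruled V M D) C) {η : ℝ} (hη : 0 < η) :
    ∃ (k : ℕ) (u : Fin k → E3) (B : Fin k → Set E3), (∀ i, ‖u i‖ = 1) ∧
      (∀ i, Bornology.IsBounded (B i) ∧ ∃ O : Set E3, IsOpen O ∧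
        B i = O ∩ {x | inner ℝ x (u i) = 0}) ∧
      {z : E3 | ∃ p ∈ D, ∃ x : ℝ, abs x ≤ M ∧ z = !₂[x, p 0 + x * V p 0, h * (p 1 + x * V p 1)]} ⊆
        ⋃ i, {z : E3 | ∃ y ∈ B i, ∃ τ : ℝ, z = y + τ • u i} ∧
      ∑ i, (μHE[2] (B i)).toReal ≤ h * C + η := by
  obtain ⟨k, c, a, b, g, h1, h2, h3⟩ := hC
  let P : Fin k → Set E3 := fun i => proj (axis h (g i)) ''
    (par (lift h (c i)) (lift h (a i)) (lift h (b i)) '' (Icc 0 1 ×ˢ Icc 0 1))
  obtain ⟨k', u, B, hu, hB, hc, ha⟩ := open_cover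
    (K := {z : E3 | ∃ p ∈ D, ∃ x : ℝ, abs x ≤ M ∧
      z = !₂[x, p 0 + x * V p 0, h * (p 1 + x * V p 1)]})
    (fun i => ‖axis h (g i)‖⁻¹ • axis h (g i)) P (fun i => norm_smul_inv_norm (axis_ne_zero _ _))
    (fun i => ((isCompact_Icc.prod isCompact_Icc).image (by unfold par; fun_prop)).image
      (continuous_proj _))
    (by
      rintro i _ ⟨y, -, rfl⟩
      rw [real_inner_smul_right, inner_proj (axis_ne_zero _ _), mul_zero])
    (by
      rintro _ ⟨p, hp, x, hx, rfl⟩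
      obtain ⟨i, s, hs, t, ht, hi⟩ := mem_iUnion.1 (h2 (a := (x, p + x • V p)) ⟨p, hp, hx, rfl⟩)
      simp only at hi
      have hi0 := congrArg (fun v : E2 => v 0) hi
      have hi1 := congrArg (fun v : E2 => v 1) hi
      simp only [PiLp.add_apply, PiLp.smul_apply, smul_eq_mul] at hi0 hi1
      set y := par (lift h (c i)) (lift h (a i)) (lift h (b i)) (s, t) with hy
      have e : (!₂[x, p 0 + x * V p 0, h * (p 1 + x * V p 1)] : E3) = y + x • axis h (g i) := by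
        rw [hi0, hi1]
        ext j
        fin_cases j <;> simp [hy, par, lift, axis] <;> ring
      have hn : ‖axis h (g i)‖ ≠ 0 := norm_ne_zero_iff.2 (axis_ne_zero _ _)
      refine mem_iUnion.2 ⟨i, proj (axis h (g i)) y, ⟨y, ⟨(s, t), ⟨hs, ht⟩, rfl⟩, rfl⟩,
        (inner ℝ y (axis h (g i)) / ‖axis h (g i)‖ ^ 2 + x) * ‖axis h (g i)‖, ?_⟩
      rw [e, smul_smul, mul_assoc, mul_inv_cancel₀ hn, mul_one, add_smul, ← add_assoc,
        ← eq_proj_add])
    hη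
  refine ⟨k', u, B, hu, hB, hc, ha.trans (add_le_add ?_ le_rfl)⟩
  refine le_trans (le_of_eq ?_) (mul_le_mul_of_nonneg_left h3 hh.le)
  rw [Finset.mul_sum]
  refine Finset.sum_congr rfl fun i _ => ?_
  simp only [P]
  rw [area_proj_par (axis_ne_zero _ _), Measure.volume_eq_prod, Measure.prod_prod,
    det3_lift hh _ (h1 i).2.1 (h1 i).2.2, norm_axis, wt]
  simp only [Real.volume_Icc, sub_zero, ENNReal.ofReal_one, mul_one]
  rw [ENNReal.toReal_ofReal (by positivity)]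
  ring

end Crest.Agent.R211
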